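import Vale.Agent.P238.Node

/-!
The tree of nested blocks, the words it spells and the two averages of pair functions.
-/

namespace Vale.Agent.P238

open Finset

/-- The positions of a tree of depth `J` with leaves of length `4096 ^ d` and arity `2 * h`. -/
@[reducible] def Idx (d h : ℕ) : ℕ → Type
  | 0 => Fin (4096 ^ d)
  | J + 1 => Fin (2 * h) × Idx d h J

instance fintypeIdx (d h : ℕ) : ∀ J, Fintype (Idx d h J)
  | 0 => inferInstanceAs (Fintype (Fin (4096 ^ d)))
  | J + 1 =>
    letI := fintypeIdx d h J
    inferInstanceAs (Fintype (Fin (2 * h) × Idx d h J))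

instance decEqIdx (d h : ℕ) : ∀ J, DecidableEq (Idx d h J)
  | 0 => inferInstanceAs (DecidableEq (Fin (4096 ^ d)))
  | J + 1 =>
    letI := decEqIdx d h J
    inferInstanceAs (DecidableEq (Fin (2 * h) × Idx d h J))

/-- The fillings of a tree. -/
abbrev Pt (d h J : ℕ) : Type := Idx d h J → Bool

/-- The length of the word of a tree. -/
def size (d h : ℕ) : ℕ → ℕ
  | 0 => 4096 ^ d
  | J + 1 => 2 * h * size d h J

/-- The positions of a word, in order. -/
def place (d h : ℕ) : ∀ J, Fin (size d h J) ≃ Idx d h J
  | 0 => Equiv.refl _
  | J + 1 => finProdFinEquiv.symm.trans (Equiv.prodCongr (Equiv.refl _) (place d h J))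

/-- The word of a filling. -/
def word {d h J : ℕ} (x : Pt d h J) : List Bool := List.ofFn fun i => x (place d h J i)

/-- Replacing the filling of one child. -/
def put {d h J : ℕ} (c : Fin (2 * h)) (z : Pt d h (J + 1)) (u : Pt d h J) : Pt d h (J + 1) :=
  fun p => if p.1 = c then u p.2 else z p

/-- The filling of one child. -/
def get {d h J : ℕ} (c : Fin (2 * h)) (z : Pt d h (J + 1)) : Pt d h J := fun i => z (c, i)

/-- Pair functions on fillings. -/
abbrev Ker (d h J : ℕ) : Type := Pt d h J → Pt d h J → ℝ

/-- A pair function seen from one child, the rest being fixed. -/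
def inKid {d h J : ℕ} (c : Fin (2 * h)) (z : Pt d h (J + 1)) (K : Ker d h (J + 1)) : Ker d h J :=
  fun u v => K (put c z u) (put c z v)

/-- The cyclic shift of a leaf. -/
def leafShift (d : ℕ) : Equiv.Perm (Fin (4096 ^ d)) := finRotate (4096 ^ d)

/-- The average over the small moves: bit changes, shifts inside leaves and shifts of children. -/
noncomputable def near (d h : ℕ) : ∀ J, Ker d h J → ℝ
  | 0, K => (∑ i, mean fun x => K x (flipAt i x)) / (d : ℝ) +
      (∑ m ∈ Finset.range (256 ^ d), mean fun x => K x (x ∘ ⇑(leafShift d ^ m))) / (256 : ℝ) ^ d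
  | J + 1, K =>
      (∑ m ∈ Finset.range d,
        mean fun x => K x (x ∘ ⇑(onChild (Idx d h J) (kidShift (2 * h) ^ m)))) / (d : ℝ) +
      ∑ c, mean fun z => near d h J (inKid c z K)

/-- The average over the exchanges of neighbouring children at every node. -/
noncomputable def far (d h : ℕ) : ∀ J, Ker d h J → ℝ
  | 0, _ => 0
  | J + 1, K =>
      (∑ p : Fin h, mean fun x => K x (x ∘ ⇑(onChild (Idx d h J) (pairSwap p)))) +
      ∑ c, mean fun z => far d h J (inKid c z K)

/-- Replacing a child twice. -/
theorem put_put {d h J : ℕ} (c : Fin (2 * h)) (z : Pt d h (J + 1)) (u : Pt d h J) :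
    put c (put c z u) (get c z) = z := by
  funext p
  obtain ⟨c', i⟩ := p
  by_cases hp : c' = c
  · subst hp; simp [put, get]
  · simp [put, hp]

theorem get_put {d h J : ℕ} (c : Fin (2 * h)) (z : Pt d h (J + 1)) (u : Pt d h J) :
    get c (put c z u) = u := by
  funext i
  simp [put, get]

/-- Exchanging the filling of a child with a fresh one. -/
def putEquiv {d h J : ℕ} (c : Fin (2 * h)) :
    Pt d h (J + 1) × Pt d h J ≃ Pt d h (J + 1) × Pt d h J where
  toFun a := (put c a.1 a.2, get c a.1)
  invFun a := (put c a.1 a.2, get c a.1)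
  left_inv a := by simp [put_put, get_put]
  right_inv a := by simp [put_put, get_put]

theorem mean_put_pair {d h J : ℕ} (c : Fin (2 * h))
    (F : Pt d h (J + 1) → Pt d h J → ℝ) :
    mean (fun z => mean fun u => F (put c z u) (get c z)) = mean fun z => mean fun u => F z u := by
  rw [mean_prod (fun a : Pt d h (J + 1) × Pt d h J => F (put c a.1 a.2) (get c a.1)),
    mean_prod (fun a : Pt d h (J + 1) × Pt d h J => F a.1 a.2)]
  exact mean_equiv (putEquiv c) fun a => F a.1 a.2

/-- A mean over fillings is a mean over one child inside a mean over the rest. -/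
theorem mean_put {d h J : ℕ} (c : Fin (2 * h)) (F : Pt d h (J + 1) → ℝ) :
    mean (fun z => mean fun u => F (put c z u)) = mean F := by
  rw [mean_put_pair c fun z _ => F z]
  exact mean_congr fun z => mean_const _

/-- The variance in a child is the mean variance of the function seen from that child. -/
theorem kidVar_eq {d h J : ℕ} (c : Fin (2 * h)) (f : Pt d h (J + 1) → ℝ) :
    kidVar c f = mean fun z => vari fun u => f (put c z u) := by
  set g : Pt d h (J + 1) → ℝ := fun z => mean fun u => f (put c z u) with hg
  have hco : ∀ S, co g S = if c ∈ kids S then 0 else co f S := by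
    intro S
    have e1 : co g S = mean fun z => f z * mean fun u => chr S (put c z u) := by
      have := mean_put_pair c fun z u => f (put c z u) * chr S z
      simp only [put_put] at this
      simp only [co, hg, ← mean_mul]
      calc _ = mean fun z => mean fun u => f (put c z u) * chr S z :=
            mean_congr fun z => by rw [mul_comm, ← mean_mul]; simp only [mul_comm]
        _ = _ := this.symm
    have e2 : ∀ z u, chr S (put c z u) = (∏ p ∈ S.filter (fun p => p.1 ≠ c), sgn (z p)) *
        chr ((S.filter fun p => p.1 = c).image Prod.snd) u := by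
      intro z u
      rw [chr, ← Finset.prod_filter_mul_prod_filter_not S (fun p => p.1 ≠ c), chr,
        Finset.prod_image (fun a ha b hb e => Prod.ext
          ((Finset.mem_filter.1 ha).2.trans (Finset.mem_filter.1 hb).2.symm) e)]
      simp only [ne_eq, not_not]
      congr 1 <;> refine Finset.prod_congr rfl fun p hp => ?_ <;>
        simp [put, (Finset.mem_filter.1 hp).2]
    rw [e1]
    by_cases hc : c ∈ kids S
    · rw [if_pos hc]
      have hz : ∀ z, (mean fun u => chr S (put c z u)) = 0 := fun z => by
        rw [mean_congr (e2 z), mean_mul, mean_chr, if_neg, mul_zero]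
        obtain ⟨p, hp, hpc⟩ := Finset.mem_image.1 hc
        exact Finset.ne_empty_of_mem (Finset.mem_image_of_mem _
          (Finset.mem_filter.2 ⟨hp, hpc⟩))
      rw [mean_congr (g := fun _ => (0 : ℝ)) fun z => by rw [hz, mul_zero], mean_const]
    · rw [if_neg hc]
      refine mean_congr fun z => ?_
      have : ∀ u, chr S (put c z u) = chr S z := fun u => Finset.prod_congr rfl fun p hp => by
        simp [put, show p.1 ≠ c from fun e => hc (e ▸ Finset.mem_image_of_mem _ hp)]
      rw [mean_congr this, mean_const]
  simp only [vari, mean_sub]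
  rw [mean_put c fun z => f z ^ 2, parseval_sq, parseval_sq, ← Finset.sum_sub_distrib, kidVar,
    Finset.sum_filter]
  refine Finset.sum_congr rfl fun S _ => ?_
  rw [hco]
  split_ifs <;> simp

end Vale.Agent.P238
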