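import Mathlib

/-!
Edit distance of binary words: the least number of insertions, deletions and substitutions.
-/

namespace Vale.Agent.P238

/-- One insertion, deletion or substitution of a single symbol. -/
def Step (x y : List Bool) : Prop :=
  (∃ u v a, x = u ++ v ∧ y = u ++ a :: v) ∨ (∃ u v a, x = u ++ a :: v ∧ y = u ++ v) ∨
    ∃ u v a b, x = u ++ a :: v ∧ y = u ++ b :: v

/-- The word `y` is reached from `x` by exactly `k` operations. -/
def Reach : ℕ → List Bool → List Bool → Prop
  | 0, x, y => x = y
  | k + 1, x, y => ∃ z, Reach k x z ∧ Step z y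

/-- The edit distance. -/
noncomputable def ed (x y : List Bool) : ℕ := sInf {k | Reach k x y}

theorem reach_add {k : ℕ} {x y : List Bool} (h : Reach k x y) :
    ∀ {l : ℕ} {z : List Bool}, Reach l y z → Reach (k + l) x z
  | 0, _, h' => h' ▸ h
  | _ + 1, _, h' => by
    obtain ⟨w, hw, hs⟩ := h'
    exact ⟨w, reach_add h hw, hs⟩

theorem reach_one {x y : List Bool} (h : Step x y) : Reach 1 x y := ⟨x, rfl, h⟩

theorem ed_le_of_reach {k : ℕ} {x y : List Bool} (h : Reach k x y) : ed x y ≤ k :=
  Nat.sInf_le h

theorem reach_clear : ∀ x : List Bool, Reach x.length x []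
  | [] => rfl
  | a :: x => by
    have h : Step (a :: x) x := Or.inr (Or.inl ⟨[], x, a, rfl, rfl⟩)
    have := reach_add (reach_one h) (reach_clear x)
    rwa [add_comm] at this

theorem step_symm {x y : List Bool} (h : Step x y) : Step y x := by
  rcases h with ⟨u, v, a, hx, hy⟩ | ⟨u, v, a, hx, hy⟩ | ⟨u, v, a, b, hx, hy⟩
  · exact Or.inr (Or.inl ⟨u, v, a, hy, hx⟩)
  · exact Or.inl ⟨u, v, a, hy, hx⟩
  · exact Or.inr (Or.inr ⟨u, v, b, a, hy, hx⟩)

theorem reach_symm : ∀ {k : ℕ} {x y : List Bool}, Reach k x y → Reach k y x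
  | 0, _, _, h => h.symm
  | k + 1, _, _, h => by
    obtain ⟨w, hw, hs⟩ := h
    have := reach_add (reach_one (step_symm hs)) (reach_symm hw)
    rwa [add_comm] at this

theorem reach_ed (x y : List Bool) : Reach (ed x y) x y :=
  Nat.sInf_mem (s := {k | Reach k x y})
    ⟨_, reach_add (reach_clear x) (reach_symm (reach_clear y))⟩

theorem ed_self (x : List Bool) : ed x x = 0 :=
  Nat.le_zero.1 (ed_le_of_reach (show Reach 0 x x from rfl))

theorem ed_comm (x y : List Bool) : ed x y = ed y x :=
  le_antisymm (ed_le_of_reach (reach_symm (reach_ed y x)))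
    (ed_le_of_reach (reach_symm (reach_ed x y)))

theorem ed_triangle (x y z : List Bool) : ed x z ≤ ed x y + ed y z :=
  ed_le_of_reach (reach_add (reach_ed x y) (reach_ed y z))

theorem reach_context (p s : List Bool) : ∀ {k : ℕ} {x y : List Bool}, Reach k x y →
    Reach k (p ++ x ++ s) (p ++ y ++ s)
  | 0, _, _, h => by rw [show _ = _ from h]; rfl
  | k + 1, _, _, h => by
    obtain ⟨w, hw, hs⟩ := h
    refine ⟨p ++ w ++ s, reach_context p s hw, ?_⟩
    rcases hs with ⟨u, v, a, rfl, rfl⟩ | ⟨u, v, a, rfl, rfl⟩ | ⟨u, v, a, b, rfl, rfl⟩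
    · exact Or.inl ⟨p ++ u, v ++ s, a, by simp, by simp⟩
    · exact Or.inr (Or.inl ⟨p ++ u, v ++ s, a, by simp, by simp⟩)
    · exact Or.inr (Or.inr ⟨p ++ u, v ++ s, a, b, by simp, by simp⟩)

theorem ed_context (p s x y : List Bool) : ed (p ++ x ++ s) (p ++ y ++ s) ≤ ed x y :=
  ed_le_of_reach (reach_context p s (reach_ed x y))

theorem ed_le_length (x y : List Bool) : ed x y ≤ x.length + y.length :=
  ed_le_of_reach (reach_add (reach_clear x) (reach_symm (reach_clear y)))

theorem ed_update_list (l : List Bool) (i : ℕ) (b : Bool) : ed l (l.set i b) ≤ 1 := by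
  by_cases hi : i < l.length
  · refine ed_le_of_reach (reach_one ?_)
    refine Or.inr (Or.inr ⟨l.take i, l.drop (i + 1), l[i], b, ?_, ?_⟩)
    · rw [List.cons_getElem_drop_succ, List.take_append_drop]
    · rw [List.set_eq_take_append_cons_drop, if_pos hi]
  · rw [List.set_eq_of_length_le (by omega), ed_self]
    exact Nat.zero_le _

/-- Changing one position of a word costs at most one. -/
theorem ed_update {n : ℕ} (x : Fin n → Bool) (i : Fin n) (b : Bool) :
    ed (List.ofFn x) (List.ofFn (Function.update x i b)) ≤ 1 := by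
  have : List.ofFn (Function.update x i b) = (List.ofFn x).set i b := by
    refine List.ext_getElem (by simp) fun j h1 h2 => ?_
    simp [List.getElem_set, Function.update_apply, Fin.ext_iff, eq_comm]
  rw [this]
  exact ed_update_list _ _ _

theorem ed_swap_append (u v : List Bool) : ed (u ++ v) (v ++ u) ≤ 2 * u.length := by
  refine (ed_triangle _ v _).trans ?_
  have h1 := ed_context [] v u []
  have h2 := ed_context v [] [] u
  simp only [List.nil_append, List.append_nil] at h1 h2
  have h3 := ed_le_length u []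
  have h4 := ed_le_length [] u
  simp only [List.length_nil] at h3 h4
  omega

/-- A cyclic shift of a word by `m` places costs at most `2 m`. -/
theorem ed_rotate (x : List Bool) (m : ℕ) : ed x (x.rotate m) ≤ 2 * m := by
  rw [List.rotate_eq_drop_append_take_mod]
  have h := ed_swap_append (x.take (m % x.length)) (x.drop (m % x.length))
  rw [List.take_append_drop] at h
  refine h.trans ?_
  have := List.length_take_le (m % x.length) x
  have := Nat.mod_le m x.length
  omega

theorem step_common {x y z : List Bool} (h : Step x y) (hz : z.Sublist x) :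
    ∃ z' : List Bool, z'.Sublist z ∧ z'.Sublist y ∧ z.length ≤ z'.length + 1 := by
  rcases h with ⟨u, v, a, rfl, rfl⟩ | ⟨u, v, a, rfl, rfl⟩ | ⟨u, v, a, b, rfl, rfl⟩
  · exact ⟨z, List.Sublist.refl z,
      hz.trans ((List.Sublist.refl u).append (List.sublist_cons_self a v)), by omega⟩
  · obtain ⟨z1, z2, rfl, h1, h2⟩ := List.sublist_append_iff.1 hz
    rcases List.sublist_cons_iff.1 h2 with h2 | ⟨w, rfl, hw⟩
    · exact ⟨_, List.Sublist.refl _, h1.append h2, by omega⟩
    · exact ⟨z1 ++ w, (List.Sublist.refl z1).append (List.sublist_cons_self a w), h1.append hw,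
        by simp only [List.length_append, List.length_cons]; omega⟩
  · obtain ⟨z1, z2, rfl, h1, h2⟩ := List.sublist_append_iff.1 hz
    rcases List.sublist_cons_iff.1 h2 with h2 | ⟨w, rfl, hw⟩
    · exact ⟨_, List.Sublist.refl _, h1.append (h2.trans (List.sublist_cons_self b v)), by omega⟩
    · exact ⟨z1 ++ w, (List.Sublist.refl z1).append (List.sublist_cons_self a w),
        h1.append (hw.trans (List.sublist_cons_self b v)), by
          simp only [List.length_append, List.length_cons]; omega⟩

theorem reach_common : ∀ {k : ℕ} {x y : List Bool}, Reach k x y →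
    ∃ z : List Bool, z.Sublist x ∧ z.Sublist y ∧ x.length ≤ z.length + k
  | 0, x, _, h => ⟨x, List.Sublist.refl x, h ▸ List.Sublist.refl x, le_rfl⟩
  | k + 1, x, y, h => by
    obtain ⟨w, hw, hs⟩ := h
    obtain ⟨z, hx, hy, hl⟩ := reach_common hw
    obtain ⟨z', h1, h2, h3⟩ := step_common hs hy
    exact ⟨z', h1.trans hx, h2, by omega⟩

/-- Two words share a subsequence missing at most `ed` symbols of the first. -/
theorem exists_common (x y : List Bool) :
    ∃ z : List Bool, z.Sublist x ∧ z.Sublist y ∧ x.length ≤ z.length + ed x y :=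
  reach_common (reach_ed x y)

/-- The middle part of a common subsequence lies in the middle block. -/
theorem middle_sublist {p w s z : List Bool} (h : z.Sublist (p ++ w ++ s)) :
    ((z.drop p.length).take (z.length - p.length - s.length)).Sublist w := by
  rw [List.append_assoc] at h
  obtain ⟨z1, z', rfl, h1, h'⟩ := List.sublist_append_iff.1 h
  obtain ⟨z2, z3, rfl, h2, h3⟩ := List.sublist_append_iff.1 h'
  have l1 := h1.length_le
  have l3 := h3.length_le
  refine (List.Sublist.trans ?_ h2)
  rw [List.drop_append, List.drop_eq_nil_of_le l1, List.nil_append]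
  refine (List.take_sublist_take_left (i := (z1 ++ (z2 ++ z3)).length - p.length - s.length)
    (j := z2.length - (p.length - z1.length)) ?_).trans ?_
  · simp only [List.length_append]; omega
  rw [List.drop_append]
  refine List.Sublist.trans ?_ (List.drop_sublist (p.length - z1.length) z2)
  rw [List.take_append_of_le_length (by simp)]
  exact List.take_sublist _ _

open Classical in
/-- The words of length `L` that contain a given subsequence of length `L - r` at given places. -/
theorem count_common (L r : ℕ) :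
    (Finset.univ.filter fun uv : (Fin L → Bool) × (Fin L → Bool) =>
      ∃ z : List Bool, L - r ≤ z.length ∧ z.Sublist (List.ofFn uv.1) ∧
        z.Sublist (List.ofFn uv.2)).card ≤ L.choose (L - r) ^ 2 * 2 ^ L * 2 ^ r := by
  set T := (Finset.univ : Finset (Fin L)).powersetCard (L - r) with hT
  set W : Finset (Fin L) × Finset (Fin L) → Finset ((Fin L → Bool) × (Fin L → Bool)) := fun AB =>
    Finset.univ.filter fun uv : (Fin L → Bool) × (Fin L → Bool) =>
      (AB.1.sort (· ≤ ·)).map uv.1 = (AB.2.sort (· ≤ ·)).map uv.2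
  have hsub : (Finset.univ.filter fun uv : (Fin L → Bool) × (Fin L → Bool) =>
      ∃ z : List Bool, L - r ≤ z.length ∧ z.Sublist (List.ofFn uv.1) ∧
        z.Sublist (List.ofFn uv.2)) ⊆ (T ×ˢ T).biUnion W := by
    intro uv huv
    obtain ⟨-, z, hz, h1, h2⟩ := Finset.mem_filter.1 huv
    have key : ∀ u : Fin L → Bool, z.Sublist (List.ofFn u) →
        ∃ A ∈ T, (A.sort (· ≤ ·)).map u = z.take (L - r) := by
      intro u hu
      rw [List.ofFn_eq_map] at hu
      obtain ⟨l, hl, rfl⟩ := List.sublist_map_iff.1 hu
      have hnd : (l.take (L - r)).Nodup :=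
        (List.nodup_finRange L).sublist ((List.take_sublist _ _).trans hl)
      refine ⟨(l.take (L - r)).toFinset, ?_, ?_⟩
      · rw [hT, Finset.mem_powersetCard]
        refine ⟨Finset.subset_univ _, ?_⟩
        rw [List.toFinset_card_of_nodup hnd, List.length_take]
        simp only [List.length_map] at hz
        omega
      · rw [List.toFinset_sort (· ≤ ·) hnd |>.2
          ((List.pairwise_le_finRange L).sublist ((List.take_sublist _ _).trans hl)), List.map_take]
    obtain ⟨A, hA, eA⟩ := key uv.1 h1
    obtain ⟨B, hB, eB⟩ := key uv.2 h2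
    exact Finset.mem_biUnion.2 ⟨(A, B), Finset.mem_product.2 ⟨hA, hB⟩,
      Finset.mem_filter.2 ⟨Finset.mem_univ _, eA.trans eB.symm⟩⟩
  refine (Finset.card_le_card hsub).trans (Finset.card_biUnion_le.trans ?_)
  have hW : ∀ AB ∈ T ×ˢ T, (W AB).card ≤ 2 ^ L * 2 ^ r := by
    intro AB hAB
    obtain ⟨hA, hB⟩ := Finset.mem_product.1 hAB
    refine (Finset.card_le_card_of_injOn
      (t := (Finset.univ : Finset ((Fin L → Bool) × ({i // i ∈ AB.2ᶜ} → Bool))))
      (fun uv => (uv.1, fun i => uv.2 i.1)) (fun _ _ => Finset.mem_coe.2 (Finset.mem_univ _))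
      ?_).trans ?_
    · intro a ha b hb e
      simp only [W, Finset.coe_filter, Finset.mem_univ, true_and, Set.mem_ofPred_eq] at ha hb
      simp only [Prod.mk.injEq] at e
      refine Prod.ext e.1 (funext fun i => ?_)
      by_cases hi : i ∈ AB.2
      · rw [e.1] at ha
        exact List.map_inj_left.1 (ha.symm.trans hb) i ((Finset.mem_sort _).2 hi)
      · exact congrFun e.2 ⟨i, Finset.mem_compl.2 hi⟩
    · rw [Finset.card_univ, Fintype.card_prod, Fintype.card_fun, Fintype.card_fun,
        Fintype.card_coe, Finset.card_compl, Fintype.card_bool, Fintype.card_fin,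
        (Finset.mem_powersetCard.1 hB).2]
      exact Nat.mul_le_mul_left _ (Nat.pow_le_pow_right (by norm_num) (by omega))
  refine (Finset.sum_le_card_nsmul _ _ _ hW).trans ?_
  rw [smul_eq_mul, Finset.card_product, hT, Finset.card_powersetCard, Finset.card_univ,
    Fintype.card_fin, sq]
  exact le_of_eq (by ring)

theorem choose_mul_pow_le {L k : ℕ} (hk : k ≤ L) : L.choose k * 7 ^ k ≤ 8 ^ L := by
  have := add_pow 7 1 L
  simp only [one_pow, mul_one] at this
  rw [show (8 : ℕ) = 7 + 1 by norm_num, this, mul_comm]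
  exact Finset.single_le_sum (f := fun m => 7 ^ m * L.choose m) (fun i _ => Nat.zero_le _)
    (Finset.mem_range.2 (by omega))

theorem count_small {L r : ℕ} (hL : 64 ≤ L) (hr : 64 * r ≤ L) :
    2 * (L.choose (L - r) ^ 2 * 2 ^ L * 2 ^ r) ≤ 4 ^ L := by
  set k := L - r with hk
  have h1 := Nat.pow_le_pow_left (choose_mul_pow_le (L := L) (k := k) (by omega)) 2
  have key : 2 * 64 ^ L ≤ 98 ^ k := by
    refine (Nat.pow_le_pow_iff_left (n := 11) (by norm_num)).1 ?_
    rw [mul_pow, ← pow_mul, ← pow_mul]
    calc 2 ^ 11 * 64 ^ (L * 11) = 2 ^ 11 * (64 ^ 11) ^ L := by rw [← pow_mul, mul_comm L]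
      _ ≤ 98 ^ 11 * (98 ^ 10) ^ L :=
          Nat.mul_le_mul (Nat.pow_le_pow_left (by norm_num) _)
            (Nat.pow_le_pow_left (by norm_num) _)
      _ = 98 ^ (11 + 10 * L) := by rw [pow_add, pow_mul]
      _ ≤ 98 ^ (k * 11) := Nat.pow_le_pow_right (by norm_num) (by omega)
  have hpos : 0 < 49 ^ k := by positivity
  refine Nat.le_of_mul_le_mul_right ?_ hpos
  have e2 : (L.choose k * 7 ^ k) ^ 2 = L.choose k ^ 2 * 49 ^ k := by
    rw [mul_pow, ← pow_mul, mul_comm k 2, pow_mul]; norm_num
  rw [e2, ← pow_mul, mul_comm L 2, pow_mul] at h1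
  calc 2 * (L.choose k ^ 2 * 2 ^ L * 2 ^ r) * 49 ^ k
      = 2 * (L.choose k ^ 2 * 49 ^ k) * 2 ^ L * 2 ^ r := by ring
    _ ≤ 2 * 64 ^ L * 2 ^ L * 2 ^ r := by gcongr; simpa using h1
    _ ≤ 98 ^ k * 2 ^ L * 2 ^ r := by gcongr
    _ = 49 ^ k * 2 ^ L * 2 ^ (r + k) := by
        rw [show (98 : ℕ) = 49 * 2 by norm_num, mul_pow, pow_add]; ring
    _ = 4 ^ L * 49 ^ k := by
        rw [show r + k = L by omega, show (4 : ℕ) = 2 * 2 by norm_num, mul_pow]; ring

/-- For most pairs of blocks, exchanging two neighbouring blocks costs at least a fixed proportion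
of their length. -/
theorem swap_far (L : ℕ) (hL : 64 ≤ L) (p s : List Bool) :
    2 * (Finset.univ.filter fun uv : (Fin L → Bool) × (Fin L → Bool) =>
      ed (p ++ List.ofFn uv.1 ++ List.ofFn uv.2 ++ s)
        (p ++ List.ofFn uv.2 ++ List.ofFn uv.1 ++ s) < L / 64).card ≤ 4 ^ L := by
  refine le_trans (Nat.mul_le_mul_left 2 ((Finset.card_le_card ?_).trans (count_common L (L / 64))))
    (count_small hL (Nat.mul_div_le L 64))
  intro uv huv
  simp only [Finset.mem_filter, Finset.mem_univ, true_and] at huv ⊢
  obtain ⟨z, h1, h2, hl⟩ := exists_common (p ++ List.ofFn uv.1 ++ List.ofFn uv.2 ++ s)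
    (p ++ List.ofFn uv.2 ++ List.ofFn uv.1 ++ s)
  simp only [List.length_append, List.length_ofFn] at hl
  rw [List.append_assoc p] at h1 h2
  have m1 := middle_sublist h1
  have m2 := middle_sublist h2
  set y := (z.drop p.length).take (z.length - p.length - s.length) with hy
  have hyl : y.length = z.length - p.length - s.length := by
    rw [hy, List.length_take, List.length_drop]; omega
  refine ⟨(y.drop ([] : List Bool).length).take
    (y.length - ([] : List Bool).length - L), ?_, ?_, ?_⟩
  · simp only [List.length_take, List.length_drop, List.length_nil]; omega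
  · have := middle_sublist (p := []) (w := List.ofFn uv.1) (s := List.ofFn uv.2) (z := y)
      (by simpa using m1)
    rwa [List.length_ofFn] at this
  · have := middle_sublist (p := []) (w := List.ofFn uv.2) (s := List.ofFn uv.1) (z := y)
      (by simpa using m2)
    rwa [List.length_ofFn] at this

end Vale.Agent.P238
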