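import Vale.Agent.P238.Block
import Vale.Agent.P238.Edit

/-!
The edit distances of the small moves and of the exchanges of neighbouring blocks.
-/

namespace Vale.Agent.P238

open Finset

theorem word_succ {d h J : ℕ} (x : Pt d h (J + 1)) :
    word x = (List.ofFn fun c => word (get c x)).flatten := by
  show List.ofFn (n := 2 * h * size d h J) (fun i => x (place d h (J + 1) i)) = _
  rw [List.ofFn_mul]
  refine congrArg List.flatten (congrArg List.ofFn (funext fun c => ?_))
  refine congrArg List.ofFn (funext fun j => ?_)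
  refine congrArg x ?_
  have hlt : c.1 * size d h J + j.1 < 2 * h * size d h J :=
    calc c.1 * size d h J + j.1 < c.1 * size d h J + size d h J := Nat.add_lt_add_left j.2 _
      _ = (c.1 + 1) * size d h J := (Nat.succ_mul _ _).symm
      _ ≤ _ := Nat.mul_le_mul_right _ c.2
  show Prod.map id (place d h J) (finProdFinEquiv.symm ⟨c.1 * size d h J + j.1, hlt⟩) = _
  have e : (⟨c.1 * size d h J + j.1, hlt⟩ : Fin (2 * h * size d h J)) = finProdFinEquiv (c, j) := by
    ext
    simp [finProdFinEquiv]
    ring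
  rw [e, Equiv.symm_apply_apply]
  rfl

theorem length_word {d h J : ℕ} (x : Pt d h J) : (word x).length = size d h J := by
  simp [word]

/-- The rest of a concatenation around one block. -/
theorem exists_split {α : Type*} : ∀ {n : ℕ} (F : Fin n → List α) (c : Fin n),
    ∃ P S : List α, ∀ G : Fin n → List α, (∀ a, a ≠ c → G a = F a) →
      (List.ofFn G).flatten = P ++ G c ++ S
  | 0, _, c => c.elim0
  | n + 1, F, c => by
    induction c using Fin.cases with
    | zero =>
      refine ⟨[], (List.ofFn (F ∘ Fin.succ)).flatten, fun G hG => ?_⟩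
      have e : (fun a : Fin n => G a.succ) = F ∘ Fin.succ :=
        funext fun a => hG _ (Fin.succ_ne_zero a)
      simp [List.ofFn_succ, e]
    | succ c =>
      obtain ⟨P, S, h⟩ := exists_split (F ∘ Fin.succ) c
      refine ⟨F 0 ++ P, S, fun G hG => ?_⟩
      have e := h (G ∘ Fin.succ) fun a ha => hG _ fun he => ha (Fin.succ_injective _ he)
      rw [List.ofFn_succ, List.flatten_cons, hG 0 (Fin.succ_ne_zero c).symm,
        show (fun a : Fin n => G a.succ) = G ∘ Fin.succ from rfl, e]
      simp [List.append_assoc]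

/-- The rest of a concatenation around two neighbouring blocks. -/
theorem exists_split_pair {α : Type*} : ∀ {n : ℕ} (F : Fin n → List α) (c c' : Fin n),
    c'.1 = c.1 + 1 → ∃ P S : List α, ∀ G : Fin n → List α, (∀ a, a ≠ c → a ≠ c' → G a = F a) →
      (List.ofFn G).flatten = P ++ G c ++ G c' ++ S
  | 0, _, c, _, _ => c.elim0
  | n + 1, F, c, c', hcc => by
    induction c' using Fin.cases with
    | zero => simp at hcc
    | succ c' =>
      induction c using Fin.cases with
      | zero =>
        have hc0 : c'.1 = 0 := by simpa using hcc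
        match n, c', hc0 with
        | n + 1, c', hc0 =>
          refine ⟨[], (List.ofFn fun a : Fin n => F a.succ.succ).flatten, fun G hG => ?_⟩
          have hc' : c' = 0 := Fin.ext hc0
          subst hc'
          have e : (fun a : Fin n => G a.succ.succ) = fun a : Fin n => F a.succ.succ :=
            funext fun a => hG _ (Fin.succ_ne_zero _)
              fun he => Fin.succ_ne_zero a (Fin.succ_injective _ he)
          simp [List.ofFn_succ, e]
      | succ c =>
        obtain ⟨P, S, h⟩ := exists_split_pair (F ∘ Fin.succ) c c' (by simpa using hcc)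
        refine ⟨F 0 ++ P, S, fun G hG => ?_⟩
        have e := h (G ∘ Fin.succ) fun a ha ha' => hG _ (fun he => ha (Fin.succ_injective _ he))
          fun he => ha' (Fin.succ_injective _ he)
        rw [List.ofFn_succ, List.flatten_cons,
          hG 0 (Fin.succ_ne_zero c).symm (Fin.succ_ne_zero c').symm,
          show (fun a : Fin n => G a.succ) = G ∘ Fin.succ from rfl, e]
        simp [List.append_assoc]

/-- The word of a tree seen from one child. -/
theorem exists_word_put {d h J : ℕ} (c : Fin (2 * h)) (z : Pt d h (J + 1)) :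
    ∃ P S : List Bool, ∀ u, word (put c z u) = P ++ word u ++ S := by
  obtain ⟨P, S, hPS⟩ := exists_split (fun a => word (get a z)) c
  refine ⟨P, S, fun u => ?_⟩
  rw [word_succ, hPS _ fun a ha => congrArg word (funext fun i => by simp [get, put, ha]), get_put]

/-- A cyclic change of the indices rotates the list. -/
theorem ofFn_rotate {α : Type*} {n : ℕ} (F : Fin n → α) (m : ℕ) :
    List.ofFn (F ∘ ⇑(finRotate n ^ m)) = (List.ofFn F).rotate m := by
  have key : ∀ (m : ℕ) (i : Fin n), ((finRotate n ^ m) i).1 = (i.1 + m) % n := by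
    intro m
    induction m with
    | zero => intro i; simp [Nat.mod_eq_of_lt i.2]
    | succ m ih =>
      intro i
      rw [pow_succ', Equiv.Perm.mul_apply]
      obtain ⟨k, rfl⟩ : ∃ k, n = k + 1 := ⟨n - 1, by have := i.isLt; omega⟩
      rw [finRotate_apply, Fin.val_add, ih i, Fin.val_one', ← Nat.add_mod, add_assoc]
  refine List.ext_getElem (by simp) fun i h₁ h₂ => ?_
  rw [List.getElem_rotate]
  simp only [List.getElem_ofFn, Function.comp_apply]
  exact congrArg F (Fin.ext (by simp [key]))

/-- Rotating blocks of equal length rotates their concatenation. -/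
theorem flatten_rotate {α : Type*} {L : ℕ} (m : ℕ) :
    ∀ l : List (List α), (∀ b ∈ l, b.length = L) → (l.rotate m).flatten = l.flatten.rotate (m * L) := by
  induction m with
  | zero => simp
  | succ m ih =>
    intro l hl
    rw [← List.rotate_rotate, Nat.succ_mul, ← List.rotate_rotate, ← ih l hl]
    cases hr : l.rotate m with
    | nil => simp
    | cons a t =>
      have ha : a.length = L := hl a (List.mem_rotate.1 (hr ▸ List.mem_cons_self))
      rw [List.flatten_cons, ← ha, List.rotate_append_length_eq, List.rotate_cons_succ,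
        List.rotate_zero]
      simp

theorem near_le_near {d h : ℕ} : ∀ {J : ℕ} {K K' : Ker d h J}, (∀ x y, K x y ≤ K' x y) →
    near d h J K ≤ near d h J K' := by
  intro J
  induction J with
  | zero =>
    intro K K' hK
    simp only [near]
    gcongr <;> exact mean_mono fun x => hK _ _
  | succ J ih =>
    intro K K' hK
    simp only [near]
    gcongr
    · exact mean_mono fun x => hK _ _
    · exact mean_mono fun z => ih fun u v => hK _ _

theorem near_ed_aux {d : ℕ} (hd : 1 ≤ d) : ∀ J : ℕ,
    near d (d ^ 3) J (fun x y => (ed (word x) (word y) : ℝ)) ≤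
      (size d (d ^ 3) J : ℝ) * (2 / d + J / (d : ℝ) ^ 2) := by
  have hd0 : (0 : ℝ) < d := by exact_mod_cast hd
  intro J
  induction J with
  | zero =>
    simp only [near, size]
    have h1 : (∑ i, mean fun x : Pt d (d ^ 3) 0 => (ed (word x) (word (flipAt i x)) : ℝ)) ≤
        (4096 : ℝ) ^ d := by
      refine (Finset.sum_le_sum (g := fun _ => (1 : ℝ)) fun i _ => ?_).trans (by simp)
      refine (mean_mono (g := fun _ => (1 : ℝ)) fun x => ?_).trans (le_of_eq (mean_const _))
      exact Nat.cast_le_one.2 (ed_update x i _)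
    have h2 : (∑ m ∈ Finset.range (256 ^ d), mean fun x : Pt d (d ^ 3) 0 =>
        (ed (word x) (word (d := d) (h := d ^ 3) (J := 0) (x ∘ ⇑(leafShift d ^ m))) : ℝ)) ≤ (256 : ℝ) ^ d * (2 * (256 : ℝ) ^ d) := by
      refine (Finset.sum_le_sum (g := fun _ => 2 * (256 : ℝ) ^ d) fun m hm => ?_).trans (by simp)
      refine (mean_mono (g := fun _ => 2 * (256 : ℝ) ^ d) fun x => ?_).trans
        (le_of_eq (mean_const _))
      have e : word (d := d) (h := d ^ 3) (J := 0) (x ∘ ⇑(leafShift d ^ m)) = (word x).rotate m := ofFn_rotate x m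
      have h := ed_rotate (word x) m
      rw [e]
      calc ((ed (word x) ((word x).rotate m) : ℕ) : ℝ) ≤ ((2 * 256 ^ d : ℕ) : ℝ) := by
            refine Nat.cast_le.2 (h.trans ?_)
            have := Finset.mem_range.1 hm
            omega
        _ = _ := by norm_num
    have h3 : 2 * (d : ℝ) * 256 ^ d ≤ 4096 ^ d := by
      have h16 : 2 * d ≤ 16 ^ d := by
        have := Nat.lt_two_pow_self (n := d)
        have : 2 ^ d * 8 ^ d = 16 ^ d := by rw [← mul_pow]; norm_num
        have : 2 ≤ 8 ^ d := le_trans (by norm_num) (Nat.le_self_pow (by omega) 8)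
        nlinarith
      calc 2 * (d : ℝ) * 256 ^ d ≤ 16 ^ d * 256 ^ d :=
            mul_le_mul_of_nonneg_right (by exact_mod_cast h16) (by positivity)
        _ = 4096 ^ d := by rw [← mul_pow]; norm_num
    simp only [Nat.cast_pow, Nat.cast_ofNat, Nat.cast_zero, zero_div, add_zero]
    calc _ ≤ (4096 : ℝ) ^ d / d + (256 : ℝ) ^ d * (2 * 256 ^ d) / 256 ^ d := by gcongr
      _ ≤ (4096 : ℝ) ^ d / d + 4096 ^ d / d := by
        rw [mul_div_cancel_left₀ _ (by positivity)]
        gcongr
        rw [le_div_iff₀ hd0]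
        linarith
      _ = _ := by ring
  | succ J ih =>
    simp only [near, size]
    set L : ℝ := (size d (d ^ 3) J : ℝ) with hL
    have h1 : (∑ m ∈ Finset.range d, mean fun x : Pt d (d ^ 3) (J + 1) =>
        (ed (word x) (word (d := d) (h := d ^ 3) (J := J + 1) (x ∘ ⇑(onChild (Idx d (d ^ 3) J) (kidShift (2 * d ^ 3) ^ m)))) : ℝ)) ≤
        d * (2 * d * L) := by
      refine (Finset.sum_le_sum (g := fun _ => 2 * (d : ℝ) * L) fun m hm => ?_).trans (by simp)
      refine (mean_mono (g := fun _ => 2 * (d : ℝ) * L) fun x => ?_).trans (le_of_eq (mean_const _))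
      have e : word (d := d) (h := d ^ 3) (J := J + 1) (x ∘ ⇑(onChild (Idx d (d ^ 3) J) (kidShift (2 * d ^ 3) ^ m))) =
          (word x).rotate (m * size d (d ^ 3) J) := by
        rw [word_succ, word_succ, ← flatten_rotate m _ (fun b hb => by
          obtain ⟨c, rfl⟩ := List.mem_ofFn.1 hb
          exact length_word _), ← ofFn_rotate]
        rfl
      have h := ed_rotate (word x) (m * size d (d ^ 3) J)
      rw [e]
      have hm' : (m : ℝ) ≤ d := by exact_mod_cast (Finset.mem_range.1 hm).le
      calc ((ed (word x) ((word x).rotate (m * size d (d ^ 3) J)) : ℕ) : ℝ)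
          ≤ ((2 * (m * size d (d ^ 3) J) : ℕ) : ℝ) := Nat.cast_le.2 h
        _ ≤ _ := by push_cast; nlinarith [mul_le_mul_of_nonneg_right hm' (show (0:ℝ) ≤ L by positivity)]
    have h2 : (∑ c, mean fun z : Pt d (d ^ 3) (J + 1) => near d (d ^ 3) J
        (inKid c z fun x y => (ed (word x) (word y) : ℝ))) ≤
        2 * (d : ℝ) ^ 3 * (L * (2 / d + J / (d : ℝ) ^ 2)) := by
      refine (Finset.sum_le_sum (g := fun _ => L * (2 / d + J / (d : ℝ) ^ 2)) fun c _ => ?_).trans
        (by simp)
      refine (mean_mono (g := fun _ => L * (2 / d + J / (d : ℝ) ^ 2)) fun z => ?_).trans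
        (le_of_eq (mean_const _))
      refine (near_le_near fun u v => ?_).trans ih
      obtain ⟨P, S, hPS⟩ := exists_word_put c z
      simp only [inKid, hPS]
      exact Nat.cast_le.2 (ed_context P S (word u) (word v))
    simp only [Nat.cast_pow, Nat.cast_ofNat, Nat.cast_mul, Nat.cast_add, Nat.cast_one]
    calc _ ≤ (d : ℝ) * (2 * d * L) / d + 2 * (d : ℝ) ^ 3 * (L * (2 / d + J / (d : ℝ) ^ 2)) := by
          gcongr
      _ = _ := by rw [hL]; field_simp; ring

/-- The small moves are cheap. -/
theorem near_ed {d J : ℕ} (hd : 1 ≤ d) (hJ : J ≤ d) :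
    near d (d ^ 3) J (fun x y => (ed (word x) (word y) : ℝ)) ≤
      3 * (size d (d ^ 3) J : ℝ) / d := by
  refine (near_ed_aux hd J).trans ?_
  have hd0 : (0 : ℝ) < d := by exact_mod_cast hd
  have : (J : ℝ) / (d : ℝ) ^ 2 ≤ 1 / d := by
    rw [div_le_div_iff₀ (by positivity) hd0]
    nlinarith [show (J : ℝ) ≤ d by exact_mod_cast hJ]
  calc _ ≤ (size d (d ^ 3) J : ℝ) * (2 / d + 1 / d) := by gcongr
    _ = _ := by ring

theorem size_pos_dvd {d h : ℕ} (hd : 1 ≤ d) (hh : 1 ≤ h) :
    ∀ J, 64 ≤ size d h J ∧ 64 ∣ size d h J := by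
  intro J
  induction J with
  | zero =>
    have h' : 4096 ∣ 4096 ^ d := dvd_pow_self _ (by omega)
    exact ⟨le_trans (by norm_num) (Nat.le_self_pow (by omega) 4096), dvd_trans (by norm_num) h'⟩
  | succ J ih =>
    exact ⟨ih.1.trans (Nat.le_mul_of_pos_left _ (by omega)), Dvd.dvd.mul_left ih.2 _⟩

/-- A random exchange of two blocks costs a fixed proportion of their length on average. -/
theorem swap_mean {L : ℕ} (hL : 64 ≤ L) (h64 : 64 ∣ L) (P S : List Bool) :
    (L : ℝ) / 128 ≤ mean fun v : Fin L → Bool => mean fun u : Fin L → Bool =>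
      (ed (P ++ List.ofFn u ++ List.ofFn v ++ S) (P ++ List.ofFn v ++ List.ofFn u ++ S) : ℝ) := by
  classical
  rw [mean_prod fun a : (Fin L → Bool) × (Fin L → Bool) =>
    (ed (P ++ List.ofFn a.2 ++ List.ofFn a.1 ++ S) (P ++ List.ofFn a.1 ++ List.ofFn a.2 ++ S) : ℝ)]
  rw [← mean_equiv (Equiv.prodComm (Fin L → Bool) (Fin L → Bool))]
  simp only [Equiv.prodComm_apply, Prod.fst_swap, Prod.snd_swap]
  obtain ⟨q, rfl⟩ := h64
  have hsf := swap_far (64 * q) hL P S
  rw [Nat.mul_div_cancel_left q (by norm_num)] at hsf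
  set B := Finset.univ.filter fun uv : (Fin (64 * q) → Bool) × (Fin (64 * q) → Bool) =>
      ed (P ++ List.ofFn uv.1 ++ List.ofFn uv.2 ++ S)
        (P ++ List.ofFn uv.2 ++ List.ofFn uv.1 ++ S) < q with hB
  have hc : (Bᶜ.card : ℝ) * q ≤ ∑ uv : (Fin (64 * q) → Bool) × (Fin (64 * q) → Bool),
      (ed (P ++ List.ofFn uv.1 ++ List.ofFn uv.2 ++ S)
        (P ++ List.ofFn uv.2 ++ List.ofFn uv.1 ++ S) : ℝ) := by
    calc (Bᶜ.card : ℝ) * q = ∑ _uv ∈ Bᶜ, (q : ℝ) := by simp
      _ ≤ _ := by
        refine (Finset.sum_le_sum fun uv huv => ?_).trans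
          (Finset.sum_le_sum_of_subset_of_nonneg (Finset.subset_univ _) fun _ _ _ => Nat.cast_nonneg _)
        simp only [hB, Finset.mem_compl, Finset.mem_filter, Finset.mem_univ, true_and, not_lt] at huv
        exact_mod_cast huv
  have hcard : Fintype.card ((Fin (64 * q) → Bool) × (Fin (64 * q) → Bool)) = 4 ^ (64 * q) := by
    simp [← mul_pow]
  have hhalf : (4 : ℝ) ^ (64 * q) ≤ 2 * Bᶜ.card := by
    have := Finset.card_compl B
    have hle := Finset.card_le_univ B
    rw [hcard] at this hle
    exact_mod_cast (show 4 ^ (64 * q) ≤ 2 * Bᶜ.card by omega)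
  have hpos : (0 : ℝ) < 4 ^ (64 * q) := by positivity
  simp only [mean, hcard, Nat.cast_pow, Nat.cast_ofNat]
  rw [le_div_iff₀ hpos]
  push_cast
  nlinarith [mul_le_mul_of_nonneg_right hhalf (Nat.cast_nonneg (α := ℝ) q)]

/-- One exchange of neighbouring children, on average, in any context. -/
theorem pair_ed {d h J : ℕ} (hd : 1 ≤ d) (i : Fin h) (p s : List Bool) :
    (size d h J : ℝ) / 128 ≤ mean fun x : Pt d h (J + 1) =>
      (ed (p ++ word x ++ s) (p ++ word (d := d) (h := h) (J := J + 1) (x ∘ ⇑(onChild (Idx d h J) (pairSwap i))) ++ s) : ℝ) := by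
  set F : Pt d h (J + 1) → ℝ := fun x =>
    (ed (p ++ word x ++ s) (p ++ word (d := d) (h := h) (J := J + 1) (x ∘ ⇑(onChild (Idx d h J) (pairSwap i))) ++ s) : ℝ) with hF
  obtain ⟨hL, hdvd⟩ := size_pos_dvd (h := h) hd (by have := i.isLt; omega) J
  rw [← mean_put (evenKid i) F, ← mean_put (oddKid i) fun z => mean fun u => F (put (evenKid i) z u)]
  refine le_of_eq_of_le (mean_const _).symm (mean_mono fun z => ?_)
  have hne : oddKid i ≠ evenKid i := by simp [oddKid, evenKid, Fin.ext_iff]
  obtain ⟨P, S, hPS⟩ := exists_split_pair (fun a => word (get a z)) (evenKid i) (oddKid i) rfl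
  have key : ∀ v u : Pt d h J,
      word (put (evenKid i) (put (oddKid i) z v) u) = P ++ word u ++ word v ++ S ∧
      word (d := d) (h := h) (J := J + 1) (put (evenKid i) (put (oddKid i) z v) u ∘ ⇑(onChild (Idx d h J) (pairSwap i))) =
        P ++ word v ++ word u ++ S := by
    intro v u
    set x := put (evenKid i) (put (oddKid i) z v) u with hx
    have g0 : ∀ a, get a x = if a = evenKid i then u else if a = oddKid i then v else get a z := by
      intro a
      funext j
      simp only [hx, get, put]
      split_ifs <;> rfl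
    have g1 : ∀ a, get a (x ∘ ⇑(onChild (Idx d h J) (pairSwap i))) = get (pairSwap i a) x :=
      fun a => rfl
    constructor
    · rw [word_succ, hPS _ fun a ha ha' => by simp [g0, ha, ha']]
      simp [g0, hne]
    · rw [word_succ, hPS _ fun a ha ha' => by simp [g1, g0, pairSwap_fix i a ha ha', ha, ha']]
      rw [g1, g1]
      simp [g0, pairSwap, hne]
  have hw : ∀ u : Pt d h J, word u =
      List.ofFn ((Equiv.arrowCongr (place d h J) (Equiv.refl Bool)).symm u) := fun u => rfl
  refine (swap_mean hL hdvd (p ++ P) (S ++ s)).trans (le_of_eq ?_)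
  rw [← mean_equiv (Equiv.arrowCongr (place d h J) (Equiv.refl Bool)).symm]
  refine mean_congr fun v => ?_
  rw [← mean_equiv (Equiv.arrowCongr (place d h J) (Equiv.refl Bool)).symm]
  refine mean_congr fun u => ?_
  simp only [hF, key v u, hw, List.append_assoc]

/-- The exchanges are expensive, in any context. -/
theorem far_ed {d h J : ℕ} (hd : 1 ≤ d) (p s : List Bool) :
    (J : ℝ) * (size d h J : ℝ) / 256 ≤
      far d h J (fun x y => (ed (p ++ word x ++ s) (p ++ word y ++ s) : ℝ)) := by
  induction J generalizing p s with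
  | zero => simp [far]
  | succ J ih =>
    simp only [far]
    set L : ℝ := (size d h J : ℝ) with hL
    have h1 : (h : ℝ) * (L / 128) ≤ ∑ i : Fin h, mean fun x : Pt d h (J + 1) =>
        (ed (p ++ word x ++ s) (p ++ word (d := d) (h := h) (J := J + 1) (x ∘ ⇑(onChild (Idx d h J) (pairSwap i))) ++ s) : ℝ) := by
      refine le_of_eq_of_le ?_ (Finset.sum_le_sum fun i _ => pair_ed hd i p s)
      simp [hL]
    have h2 : 2 * (h : ℝ) * ((J : ℝ) * L / 256) ≤ ∑ c, mean fun z : Pt d h (J + 1) =>
        far d h J (inKid c z fun x y => (ed (p ++ word x ++ s) (p ++ word y ++ s) : ℝ)) := by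
      refine le_of_eq_of_le (a := 2 * (h : ℝ) * ((J : ℝ) * L / 256))
        (b := ∑ _c : Fin (2 * h), (J : ℝ) * L / 256) (by simp) (Finset.sum_le_sum fun c _ => ?_)
      refine le_of_eq_of_le (mean_const (α := Pt d h (J + 1)) _).symm (mean_mono fun z => ?_)
      obtain ⟨P, S, hPS⟩ := exists_word_put c z
      refine le_of_le_of_eq (ih (p ++ P) (S ++ s)) (congrArg _ ?_)
      funext u v
      simp only [inKid, hPS, List.append_assoc]
    refine le_of_eq_of_le ?_ (add_le_add h1 h2)
    simp only [size, hL]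
    push_cast
    ring

end Vale.Agent.P238
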