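import Vale.Agent.P063.Cube

/-!
Walsh coefficients on a discrete cube.
-/

namespace Vale.Agent.P238

open Finset

/-- The average over a finite type. -/
noncomputable def mean {α : Type*} [Fintype α] (f : α → ℝ) : ℝ :=
  (∑ x, f x) / (Fintype.card α : ℝ)

section
variable {α β : Type*} [Fintype α] [Fintype β]

theorem mean_add (f g : α → ℝ) : mean (fun x => f x + g x) = mean f + mean g := by
  simp [mean, Finset.sum_add_distrib, add_div]

theorem mean_sub (f g : α → ℝ) : mean (fun x => f x - g x) = mean f - mean g := by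
  simp [mean, Finset.sum_sub_distrib, sub_div]

theorem mean_mul (c : ℝ) (f : α → ℝ) : mean (fun x => c * f x) = c * mean f := by
  simp [mean, ← Finset.mul_sum, mul_div_assoc]

theorem mean_sum {κ : Type*} (s : Finset κ) (f : κ → α → ℝ) :
    mean (fun x => ∑ k ∈ s, f k x) = ∑ k ∈ s, mean (f k) := by
  simp only [mean, Finset.sum_div]
  rw [Finset.sum_comm]

theorem mean_mono {f g : α → ℝ} (h : ∀ x, f x ≤ g x) : mean f ≤ mean g :=
  div_le_div_of_nonneg_right (Finset.sum_le_sum fun x _ => h x) (Nat.cast_nonneg _)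

theorem mean_nonneg {f : α → ℝ} (h : ∀ x, 0 ≤ f x) : 0 ≤ mean f :=
  div_nonneg (Finset.sum_nonneg fun x _ => h x) (Nat.cast_nonneg _)

theorem mean_congr {f g : α → ℝ} (h : ∀ x, f x = g x) : mean f = mean g := by
  simp [mean, h]

theorem mean_const [Nonempty α] (c : ℝ) : mean (fun _ : α => c) = c := by
  simp [mean]

theorem mean_equiv (e : α ≃ β) (f : β → ℝ) : mean (fun x => f (e x)) = mean f := by
  simp only [mean, Fintype.card_congr e, e.sum_comp f]

theorem mean_prod (F : α × β → ℝ) : mean (fun a => mean fun b => F (a, b)) = mean F := by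
  simp only [mean, Fintype.sum_prod_type, Fintype.card_prod, Nat.cast_mul, ← Finset.sum_div,
    div_div]
  rw [mul_comm]

theorem mean_mul_sq_le (f g : α → ℝ) :
    mean (fun x => f x * g x) ^ 2 ≤ mean (fun x => f x ^ 2) * mean (fun x => g x ^ 2) := by
  simp only [mean, div_pow, div_mul_div_comm, ← sq]
  exact div_le_div_of_nonneg_right (Finset.sum_mul_sq_le_sq_mul_sq _ _ _) (sq_nonneg _)

end

variable {ι : Type*} [Fintype ι] [DecidableEq ι]

/-- The sign of a bit. -/
def sgn (b : Bool) : ℝ := if b then 1 else -1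

theorem sgn_sq (b : Bool) : sgn b * sgn b = 1 := by cases b <;> simp [sgn]

/-- The Walsh character of a set. -/
noncomputable def chr (S : Finset ι) (x : ι → Bool) : ℝ := ∏ i ∈ S, sgn (x i)

/-- The Walsh coefficient of a function. -/
noncomputable def co (f : (ι → Bool) → ℝ) (S : Finset ι) : ℝ := mean fun x => f x * chr S x

theorem mean_pi (h : ι → Bool → ℝ) :
    mean (fun x : ι → Bool => ∏ i, h i (x i)) = ∏ i, (h i true + h i false) / 2 := by
  rw [mean, ← Fintype.prod_sum, Fintype.card_fun, Fintype.card_bool, Finset.prod_div_distrib,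
    Finset.prod_const, Finset.card_univ]
  simp

theorem chr_eq_prod (S : Finset ι) (x : ι → Bool) :
    chr S x = ∏ i, if i ∈ S then sgn (x i) else 1 := by
  rw [chr, Finset.prod_ite_mem, Finset.univ_inter]

theorem mean_chr (S : Finset ι) : mean (chr S) = if S = ∅ then 1 else 0 := by
  rw [mean_congr (chr_eq_prod S), mean_pi fun i b => if i ∈ S then sgn b else 1]
  split_ifs with h
  · exact Finset.prod_eq_one fun i _ => by simp [h]
  · obtain ⟨i, hi⟩ := Finset.nonempty_iff_ne_empty.2 h
    exact Finset.prod_eq_zero (Finset.mem_univ i) (by simp [hi, sgn])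

theorem mean_chr_mul (S T : Finset ι) :
    mean (fun x => chr S x * chr T x) = if S = T then 1 else 0 := by
  have e : ∀ x, chr S x * chr T x = chr (symmDiff S T) x := fun x => by
    rw [chr_eq_prod, chr_eq_prod, chr_eq_prod, ← Finset.prod_mul_distrib]
    refine Finset.prod_congr rfl fun i _ => ?_
    by_cases hS : i ∈ S <;> by_cases hT : i ∈ T <;>
      simp [hS, hT, Finset.mem_symmDiff, sgn_sq]
  rw [mean_congr e, mean_chr]
  simp [symmDiff_eq_bot, ← Finset.bot_eq_empty]

theorem sum_chr_mul (x y : ι → Bool) :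
    ∑ S : Finset ι, chr S x * chr S y = if x = y then (2 : ℝ) ^ Fintype.card ι else 0 := by
  have e : ∑ S : Finset ι, chr S x * chr S y = ∏ i, (1 + sgn (x i) * sgn (y i)) := by
    rw [Finset.prod_one_add, Finset.powerset_univ]
    simp only [chr, Finset.prod_mul_distrib]
  rw [e]
  split_ifs with h
  · subst h
    simp only [sgn_sq, Finset.prod_const, Finset.card_univ]
    norm_num
  · obtain ⟨i, hi⟩ := Function.ne_iff.1 h
    exact Finset.prod_eq_zero (Finset.mem_univ i) (by
      cases hx : x i <;> cases hy : y i <;> simp_all [sgn])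

theorem expansion (f : (ι → Bool) → ℝ) (x : ι → Bool) : f x = ∑ S, co f S * chr S x := by
  have h : ∀ S, co f S * chr S x =
      (∑ y, f y * (chr S y * chr S x)) / (2 : ℝ) ^ Fintype.card ι := by
    intro S
    simp only [co, mean, Fintype.card_fun, Fintype.card_bool, Nat.cast_pow, Nat.cast_ofNat,
      div_mul_eq_mul_div, Finset.sum_mul, mul_assoc]
  rw [Finset.sum_congr rfl fun S _ => h S, ← Finset.sum_div, Finset.sum_comm]
  simp only [← Finset.mul_sum, sum_chr_mul, mul_ite, mul_zero, Finset.sum_ite_eq',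
    Finset.mem_univ, if_true]
  field_simp

theorem parseval (f g : (ι → Bool) → ℝ) :
    mean (fun x => f x * g x) = ∑ S, co f S * co g S := by
  rw [mean_congr (g := fun x => ∑ S, co f S * (g x * chr S x)) fun x => by
    conv_lhs => rw [expansion f x]
    rw [Finset.sum_mul]
    exact Finset.sum_congr rfl fun S _ => by ring, mean_sum]
  simp only [mean_mul]
  rfl

theorem parseval_sq (f : (ι → Bool) → ℝ) : mean (fun x => f x ^ 2) = ∑ S, co f S ^ 2 := by
  simpa only [sq] using parseval f f

theorem co_sub (f g : (ι → Bool) → ℝ) (S : Finset ι) :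
    co (fun x => f x - g x) S = co f S - co g S := by
  simp only [co, sub_mul, mean_sub]

theorem co_mul (c : ℝ) (f : (ι → Bool) → ℝ) (S : Finset ι) :
    co (fun x => c * f x) S = c * co f S := by
  simp only [co, mul_assoc, mean_mul]

theorem co_sum {κ : Type*} (s : Finset κ) (f : κ → (ι → Bool) → ℝ) (S : Finset ι) :
    co (fun x => ∑ k ∈ s, f k x) S = ∑ k ∈ s, co (f k) S := by
  simp only [co, Finset.sum_mul, mean_sum]

/-- The bijection of the cube given by a permutation of the coordinates. -/
def permute (π : Equiv.Perm ι) : (ι → Bool) ≃ (ι → Bool) where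
  toFun x := x ∘ π
  invFun x := x ∘ π.symm
  left_inv x := by funext i; simp
  right_inv x := by funext i; simp

theorem co_permute (π : Equiv.Perm ι) (f : (ι → Bool) → ℝ) (S : Finset ι) :
    co (fun x => f (x ∘ π)) S = co f (S.map π.symm.toEmbedding) := by
  unfold co
  rw [← mean_equiv (permute π) fun x => f x * chr (S.map π.symm.toEmbedding) x]
  refine mean_congr fun x => ?_
  simp [permute, chr, Finset.prod_map]

theorem mean_sq_sub (f g : (ι → Bool) → ℝ) :
    mean (fun x => (f x - g x) ^ 2) = ∑ S, (co f S - co g S) ^ 2 := by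
  simp only [parseval_sq, co_sub]

/-- Changing one bit. -/
def flipAt (i : ι) (x : ι → Bool) : ι → Bool := Function.update x i (!x i)

theorem flipAt_flipAt (i : ι) (x : ι → Bool) : flipAt i (flipAt i x) = x := by
  simp [flipAt]

theorem chr_flipAt (S : Finset ι) (i : ι) (x : ι → Bool) :
    chr S (flipAt i x) = (if i ∈ S then -1 else 1) * chr S x := by
  by_cases hi : i ∈ S
  · rw [if_pos hi, chr, chr, ← Finset.mul_prod_erase S _ hi, ← Finset.mul_prod_erase S _ hi]
    have : ∀ j ∈ S.erase i, sgn (flipAt i x j) = sgn (x j) := fun j hj => by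
      rw [flipAt, Function.update_of_ne (Finset.ne_of_mem_erase hj)]
    rw [Finset.prod_congr rfl this]
    cases h : x i <;> simp [flipAt, sgn, h]
  · rw [if_neg hi, one_mul]
    refine Finset.prod_congr rfl fun j hj => ?_
    rw [flipAt, Function.update_of_ne fun h : j = i => hi (h ▸ hj)]

theorem co_flipAt (i : ι) (f : (ι → Bool) → ℝ) (S : Finset ι) :
    co (fun x => f (flipAt i x)) S = (if i ∈ S then -1 else 1) * co f S := by
  unfold co
  rw [← mean_mul,
    ← mean_equiv ⟨flipAt i, flipAt i, flipAt_flipAt i, flipAt_flipAt i⟩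
      fun x => (if i ∈ S then -1 else 1 : ℝ) * (f x * chr S x)]
  refine mean_congr fun x => ?_
  show f (flipAt i x) * chr S x = _ * (f (flipAt i x) * chr S (flipAt i x))
  rw [chr_flipAt]
  split_ifs <;> ring

/-- The mean squared change of a function under flipping one bit. -/
noncomputable def infl (f : (ι → Bool) → ℝ) (i : ι) : ℝ :=
  mean fun x => (f x - f (flipAt i x)) ^ 2

theorem infl_eq (f : (ι → Bool) → ℝ) (i : ι) :
    infl f i = 4 * ∑ S ∈ Finset.univ.filter (fun S => i ∈ S), co f S ^ 2 := by
  rw [infl, mean_sq_sub, Finset.mul_sum, Finset.sum_filter]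
  refine Finset.sum_congr rfl fun S _ => ?_
  rw [co_flipAt]
  split_ifs <;> ring

theorem sum_infl (f : (ι → Bool) → ℝ) :
    ∑ i, infl f i = 4 * ∑ S : Finset ι, (S.card : ℝ) * co f S ^ 2 := by
  simp only [infl_eq, ← Finset.mul_sum]
  congr 1
  simp only [Finset.sum_filter]
  rw [Finset.sum_comm]
  refine Finset.sum_congr rfl fun S _ => ?_
  rw [← Finset.sum_filter]
  simp

/-- The variance of a function on the cube. -/
noncomputable def vari (f : (ι → Bool) → ℝ) : ℝ := mean (fun x => f x ^ 2) - mean f ^ 2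

theorem vari_eq (f : (ι → Bool) → ℝ) :
    vari f = ∑ S ∈ Finset.univ.filter (fun S : Finset ι => S ≠ ∅), co f S ^ 2 := by
  rw [vari, parseval_sq, Finset.filter_ne', ← Finset.sum_erase_add _ _ (Finset.mem_univ ∅)]
  have : co f ∅ = mean f := by simp [co, chr]
  rw [this]; ring

theorem hyper_half (d : ℕ) (c : Finset ι → ℝ) (hc : ∀ S, d < S.card → c S = 0) :
    mean (fun x => (∑ S, c S * chr S x) ^ 4) ≤ (64 : ℝ) ^ d * (∑ S, c S ^ 2) ^ 2 := by
  have h := P063.hyper (α := ι) (p := 1 / 2) (by norm_num) (by norm_num) 64 (by norm_num)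
    Finset.univ d c fun T _ hT => hc T hT
  rw [Finset.powerset_univ] at h
  refine le_trans (le_of_eq ?_) h
  let e : (ι → Bool) ≃ Finset ι :=
    { toFun := fun x => Finset.univ.filter fun i => x i = true
      invFun := fun S i => decide (i ∈ S)
      left_inv := fun x => by funext i; simp
      right_inv := fun S => by ext i; simp }
  have hchr : ∀ S x, P063.phi (1 / 2) S (e x) = chr S x := by
    intro S x
    refine Finset.prod_congr rfl fun i _ => ?_
    have hs : P063.sd (1 / 2) = 1 / 2 := by
      rw [P063.sd, show (1 / 2 : ℝ) * (1 - 1 / 2) = (1 / 2) ^ 2 by norm_num,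
        Real.sqrt_sq (by norm_num)]
    rw [P063.chi, hs]
    cases hx : x i <;> simp [e, sgn, hx] <;> norm_num
  rw [P063.Ex, Finset.powerset_univ, mean, ← e.sum_comp, Finset.sum_div]
  refine Finset.sum_congr rfl fun x _ => ?_
  simp only [hchr]
  rw [P063.wt, Fintype.card_fun, Fintype.card_bool]
  have : ∀ i : ι, (if i ∈ e x then (1 / 2 : ℝ) else 1 - 1 / 2) = 1 / 2 := fun i => by
    split_ifs <;> norm_num
  rw [Finset.prod_congr rfl fun i _ => this i, Finset.prod_const, Finset.card_univ]
  push_cast
  rw [div_pow, one_pow]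
  ring

end Vale.Agent.P238
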