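import Vale.Agent.P238.Cube

/-!
The variance of a Boolean function on one block is small compared with its influences and its
changes under small shifts of the block.
-/

namespace Vale.Agent.P238

open Finset

variable {ι : Type*} [Fintype ι] [DecidableEq ι]

/-- Half of the change of a function under flipping one bit. -/
noncomputable def halfDiff (i : ι) (f : (ι → Bool) → ℝ) (x : ι → Bool) : ℝ :=
  (f x - f (flipAt i x)) / 2

theorem co_halfDiff (i : ι) (f : (ι → Bool) → ℝ) (S : Finset ι) :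
    co (halfDiff i f) S = if i ∈ S then co f S else 0 := by
  have e : halfDiff i f = fun x => (1 / 2 : ℝ) * (f x - f (flipAt i x)) := by
    funext x
    rw [halfDiff]
    ring
  rw [e, co_mul, co_sub, co_flipAt]
  split_ifs <;> ring

theorem flipAt_comp (π : Equiv.Perm ι) (i : ι) (x : ι → Bool) :
    flipAt i x ∘ ⇑π = flipAt (π.symm i) (x ∘ ⇑π) := by
  funext j
  by_cases h : j = π.symm i
  · subst h
    simp [flipAt]
  · have h' : π j ≠ i := fun e => h (by rw [← e, Equiv.symm_apply_apply])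
    simp [flipAt, h, h']

theorem co_series (c : Finset ι → ℝ) (S : Finset ι) :
    co (fun x => ∑ T, c T * chr T x) S = c S := by
  rw [co_sum]
  simp only [co, mul_assoc, mean_mul, mul_ite, mul_one, mul_zero, mean_chr_mul, Finset.sum_ite_eq',
    Finset.mem_univ, if_true]

/-- The low degree part of one influence of a function with bounded differences. -/
theorem low_inf_le (i : ι) {h : (ι → Bool) → ℝ} (hb : ∀ x, |halfDiff i h x| ≤ 1 / 2) (d : ℕ) :
    (∑ S ∈ univ.filter (fun S : Finset ι => i ∈ S ∧ S.card ≤ d), co h S ^ 2) ^ 2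
      ≤ 64 ^ d * mean (fun x => |halfDiff i h x|) ^ 3 := by
  set δ := mean (fun x => |halfDiff i h x|) with hδ
  set a := ∑ S ∈ univ.filter (fun S : Finset ι => i ∈ S ∧ S.card ≤ d), co h S ^ 2 with ha
  set c : Finset ι → ℝ := fun S => if i ∈ S ∧ S.card ≤ d then co h S else 0 with hc
  set L : (ι → Bool) → ℝ := fun x => ∑ S, c S * chr S x with hL
  have hc2 : ∑ S, c S ^ 2 = a := by
    rw [ha, Finset.sum_filter]
    refine Finset.sum_congr rfl fun S _ => ?_
    simp only [hc]
    split_ifs <;> ring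
  have hprod : mean (fun x => L x * halfDiff i h x) = a := by
    rw [parseval, ha, Finset.sum_filter]
    refine Finset.sum_congr rfl fun S _ => ?_
    rw [hL, co_series, co_halfDiff]
    simp only [hc]
    split_ifs <;> simp_all [sq]
  have hL4 : mean (fun x => L x ^ 4) ≤ 64 ^ d * a ^ 2 := by
    rw [← hc2]
    refine hyper_half d c fun S hS => ?_
    simp only [hc]
    rw [if_neg]
    exact fun h => absurd h.2 (not_le.2 hS)
  have hδ0 : 0 ≤ δ := mean_nonneg fun x => abs_nonneg _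
  set X := mean (fun x => L x ^ 2 * |halfDiff i h x|) with hX
  have hX1 : a ^ 2 ≤ X * δ := by
    rw [← hprod, hX, hδ]
    simp only [mean, div_pow, div_mul_div_comm, ← sq]
    refine div_le_div_of_nonneg_right ?_ (sq_nonneg _)
    refine Finset.sum_sq_le_sum_mul_sum_of_sq_le_mul _
      (fun x _ => mul_nonneg (sq_nonneg _) (abs_nonneg _)) (fun x _ => abs_nonneg _)
      fun x _ => le_of_eq ?_
    rw [mul_assoc, abs_mul_abs_self]
    ring
  have hX2 : X ^ 2 ≤ 64 ^ d * a ^ 2 * δ := by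
    refine (mean_mul_sq_le _ _).trans (mul_le_mul ?_ ?_ (mean_nonneg fun x => sq_nonneg _)
      (by positivity))
    · simpa only [← pow_mul] using hL4
    · refine mean_mono fun x => ?_
      have h2 := hb x
      nlinarith [abs_nonneg (halfDiff i h x)]
  rcases eq_or_ne a 0 with h00 | h00
  · rw [h00]
    simpa using mul_nonneg (pow_nonneg (by norm_num : (0 : ℝ) ≤ 64) d) (pow_nonneg hδ0 3)
  have h4 : (a ^ 2) ^ 2 ≤ (X * δ) ^ 2 := pow_le_pow_left₀ (sq_nonneg a) hX1 2
  have h5 : (X * δ) ^ 2 ≤ (64 ^ d * δ ^ 3) * a ^ 2 := by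
    calc (X * δ) ^ 2 = X ^ 2 * δ ^ 2 := by ring
      _ ≤ 64 ^ d * a ^ 2 * δ * δ ^ 2 := by gcongr
      _ = _ := by ring
  have h6 := h4.trans h5
  rw [sq (a ^ 2)] at h6
  exact le_of_mul_le_mul_right h6 (by positivity)

theorem cube_le_four_pow (d : ℕ) : d ^ 3 ≤ 4 ^ d := by
  match d with
  | 0 => norm_num
  | 1 => norm_num
  | n + 2 =>
    induction n with
    | zero => norm_num
    | succ n ih =>
      calc (n + 1 + 2) ^ 3 ≤ 4 * (n + 2) ^ 3 := by nlinarith [Nat.zero_le n, sq_nonneg (n + 2)]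
        _ ≤ 4 * 4 ^ (n + 2) := by omega
        _ = _ := by ring

/-- The variance on one block. -/
theorem leaf_bound (ρ : Equiv.Perm ι) {d : ℕ} (hd : 1 ≤ d)
    (hρ : ∀ i, Set.InjOn (fun m : ℕ => (ρ ^ m) i) (Finset.range (256 ^ d)))
    (g : (ι → Bool) → ℝ) (hg : ∀ x, g x = 0 ∨ g x = 1) :
    vari g ≤ 4 / (d : ℝ) * ∑ i, infl g i + 2 / (256 : ℝ) ^ d *
      ∑ m ∈ Finset.range (256 ^ d), mean fun x => (g x - g (x ∘ ⇑(ρ ^ m))) ^ 2 := by
  have hd0 : (0 : ℝ) < d := by exact_mod_cast hd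
  set N : ℝ := (256 : ℝ) ^ d with hN
  have hN0 : 0 < N := by positivity
  set R := Finset.range (256 ^ d) with hR
  have hRc : (R.card : ℝ) = N := by rw [hR, hN, Finset.card_range]; push_cast; rfl
  set Avg := ∑ m ∈ R, mean fun x => (g x - g (x ∘ ⇑(ρ ^ m))) ^ 2 with hAvg
  set A : ι → ℝ := fun i => mean (fun x => |halfDiff i g x|) with hA
  set I := ∑ i, A i with hI
  have hA0 : ∀ i, 0 ≤ A i := fun i => mean_nonneg fun x => abs_nonneg _
  have hI0 : 0 ≤ I := Finset.sum_nonneg fun i _ => hA0 i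
  have hflip : ∑ i, infl g i = 2 * I := by
    rw [hI, Finset.mul_sum]
    refine Finset.sum_congr rfl fun i _ => ?_
    rw [infl, hA, ← mean_mul]
    refine mean_congr fun x => ?_
    rcases hg x with h | h <;> rcases hg (flipAt i x) with h' | h' <;> norm_num [halfDiff, h, h']
  have hAvg0 : 0 ≤ Avg := Finset.sum_nonneg fun m _ => mean_nonneg fun x => sq_nonneg _
  rw [hflip]
  by_cases hbig : (d : ℝ) ≤ I
  · have hv : vari g ≤ 1 := by
      have h2 : mean (fun x => g x ^ 2) ≤ mean fun _ : ι → Bool => (1 : ℝ) :=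
        mean_mono fun x => by rcases hg x with h | h <;> simp [h]
      rw [mean_const] at h2
      rw [vari]
      nlinarith [sq_nonneg (mean g)]
    have h3 : (1 : ℝ) ≤ 4 / d * (2 * I) := by
      rw [div_mul_eq_mul_div, le_div_iff₀ hd0]
      linarith
    have : 0 ≤ 2 / N * Avg := by positivity
    linarith
  push Not at hbig
  set w : (ι → Bool) → ℝ := fun x => (∑ m ∈ R, g (x ∘ ⇑(ρ ^ m))) / N with hw
  set δ : ι → ℝ := fun i => (∑ m ∈ R, A ((ρ ^ m).symm i)) / N with hδ
  have hinj : ∀ i, Set.InjOn (fun m : ℕ => (ρ ^ m).symm i) R := fun i m hm m' hm' e => by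
    refine hρ ((ρ ^ m).symm i) hm hm' ?_
    have e' : (ρ ^ m).symm i = (ρ ^ m').symm i := e
    show (ρ ^ m) ((ρ ^ m).symm i) = (ρ ^ m') ((ρ ^ m).symm i)
    rw [Equiv.apply_symm_apply, e', Equiv.apply_symm_apply]
  have hδI : ∀ i, δ i ≤ I / N := fun i => by
    refine div_le_div_of_nonneg_right ?_ hN0.le
    rw [← Finset.sum_image (f := A) (hinj i)]
    exact Finset.sum_le_sum_of_subset_of_nonneg (subset_univ _) fun j _ _ => hA0 j
  have hδsum : ∑ i, δ i = I := by
    simp only [hδ, ← Finset.sum_div]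
    rw [Finset.sum_comm, Finset.sum_congr rfl (fun m _ => Equiv.sum_comp (ρ ^ m).symm A),
      Finset.sum_const, nsmul_eq_mul, hRc, mul_div_cancel_left₀ _ hN0.ne']
  have hDw : ∀ i x, halfDiff i w x =
      (∑ m ∈ R, halfDiff ((ρ ^ m).symm i) g (x ∘ ⇑(ρ ^ m))) / N := by
    intro i x
    simp only [halfDiff, hw, ← flipAt_comp, ← Finset.sum_div, Finset.sum_sub_distrib]
    ring
  have hDg : ∀ j y, |halfDiff j g y| ≤ 1 / 2 := fun j y => by
    rcases hg y with h | h <;> rcases hg (flipAt j y) with h' | h' <;> norm_num [halfDiff, h, h']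
  have hlow : ∀ i, ∑ S ∈ univ.filter (fun S : Finset ι => i ∈ S ∧ S.card ≤ d), co w S ^ 2
      ≤ δ i / d := by
    intro i
    have hb : ∀ x, |halfDiff i w x| ≤ 1 / 2 := fun x => by
      rw [hDw, abs_div, abs_of_pos hN0, div_le_iff₀ hN0]
      refine (Finset.abs_sum_le_sum_abs _ _).trans ?_
      refine (Finset.sum_le_sum fun m _ => hDg _ _).trans ?_
      rw [Finset.sum_const, nsmul_eq_mul, hRc]
      linarith
    have hl := low_inf_le i hb d
    set a := ∑ S ∈ univ.filter (fun S : Finset ι => i ∈ S ∧ S.card ≤ d), co w S ^ 2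
    have hE : mean (fun x => |halfDiff i w x|) ≤ δ i := by
      refine (mean_mono (g := fun x => (1 / N) *
        ∑ m ∈ R, |halfDiff ((ρ ^ m).symm i) g (x ∘ ⇑(ρ ^ m))|) fun x => ?_).trans (le_of_eq ?_)
      · rw [hDw, abs_div, abs_of_pos hN0, one_div_mul_eq_div]
        exact div_le_div_of_nonneg_right (Finset.abs_sum_le_sum_abs _ _) hN0.le
      · rw [mean_mul, mean_sum, one_div_mul_eq_div, hδ]
        congr 1
        refine Finset.sum_congr rfl fun m _ => ?_
        exact mean_equiv (permute (ρ ^ m)) (fun y => |halfDiff ((ρ ^ m).symm i) g y|)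
    have hE0 : 0 ≤ mean (fun x => |halfDiff i w x|) := mean_nonneg fun x => abs_nonneg _
    have hδ0 : 0 ≤ δ i := hE0.trans hE
    have key : a ^ 2 ≤ (δ i / d) ^ 2 := by
      have e1 : a ^ 2 ≤ 64 ^ d * δ i ^ 3 := hl.trans (by gcongr)
      have e2 : δ i ≤ d / (256 : ℝ) ^ d :=
        (hδI i).trans (div_le_div_of_nonneg_right hbig.le hN0.le)
      have e3 : (d : ℝ) ^ 3 ≤ (4 : ℝ) ^ d := by exact_mod_cast cube_le_four_pow d
      calc a ^ 2 ≤ 64 ^ d * δ i ^ 3 := e1
        _ = 64 ^ d * δ i * δ i ^ 2 := by ring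
        _ ≤ 64 ^ d * (d / (256 : ℝ) ^ d) * δ i ^ 2 := by gcongr
        _ = d / (4 : ℝ) ^ d * δ i ^ 2 := by
          rw [show (256 : ℝ) ^ d = 64 ^ d * 4 ^ d by rw [← mul_pow]; norm_num]
          field_simp
        _ ≤ 1 / (d : ℝ) ^ 2 * δ i ^ 2 := by
          refine mul_le_mul_of_nonneg_right ?_ (sq_nonneg _)
          rw [div_le_div_iff₀ (by positivity) (by positivity)]
          nlinarith
        _ = _ := by ring
    exact (abs_le_of_sq_le_sq' key (div_nonneg hδ0 hd0.le)).2
  have hhigh : ∑ S ∈ univ.filter (fun S : Finset ι => ¬S.card ≤ d), co g S ^ 2 ≤ I / (2 * d) := by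
    have htot : ∑ S : Finset ι, (S.card : ℝ) * co g S ^ 2 = I / 2 := by
      have := sum_infl g
      linarith
    rw [le_div_iff₀ (by positivity), Finset.sum_mul]
    calc ∑ S ∈ univ.filter (fun S : Finset ι => ¬S.card ≤ d), co g S ^ 2 * (2 * d)
        ≤ ∑ S ∈ univ.filter (fun S : Finset ι => ¬S.card ≤ d),
          2 * ((S.card : ℝ) * co g S ^ 2) := by
          refine Finset.sum_le_sum fun S hS => ?_
          have hc : (d : ℝ) ≤ S.card := by
            exact_mod_cast le_of_lt (not_le.1 (mem_filter.1 hS).2)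
          nlinarith [mul_le_mul_of_nonneg_right hc (sq_nonneg (co g S))]
      _ ≤ ∑ S : Finset ι, 2 * ((S.card : ℝ) * co g S ^ 2) :=
          Finset.sum_le_sum_of_subset_of_nonneg (filter_subset _ _) fun S _ _ => by positivity
      _ = I := by rw [← Finset.mul_sum, htot]; ring
  have hdiff : ∑ S, (co g S - co w S) ^ 2 ≤ Avg / N := by
    rw [← mean_sq_sub, hAvg, div_eq_inv_mul, ← mean_sum, ← mean_mul]
    refine mean_mono fun x => ?_
    have hj := sq_sum_le_card_mul_sum_sq (s := R) (f := fun m => g x - g (x ∘ ⇑(ρ ^ m)))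
    rw [hRc] at hj
    have hgw : g x - w x = (∑ m ∈ R, (g x - g (x ∘ ⇑(ρ ^ m)))) / N := by
      rw [hw, Finset.sum_sub_distrib, Finset.sum_const, nsmul_eq_mul, hRc, sub_div,
        mul_div_cancel_left₀ _ hN0.ne']
    rw [hgw, div_pow, inv_mul_eq_div, div_le_div_iff₀ (by positivity) hN0]
    calc _ ≤ (N * ∑ m ∈ R, (g x - g (x ∘ ⇑(ρ ^ m))) ^ 2) * N :=
          mul_le_mul_of_nonneg_right hj hN0.le
      _ = _ := by ring
  have hlowsum : ∑ S ∈ univ.filter (fun S : Finset ι => S ≠ ∅ ∧ S.card ≤ d), co w S ^ 2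
      ≤ I / d := by
    calc _ ≤ ∑ S ∈ univ.filter (fun S : Finset ι => S ≠ ∅ ∧ S.card ≤ d),
          ∑ i ∈ S, co w S ^ 2 := Finset.sum_le_sum fun S hS => by
            rw [Finset.sum_const, nsmul_eq_mul]
            refine le_mul_of_one_le_left (sq_nonneg _) ?_
            exact_mod_cast Finset.card_pos.2 (nonempty_iff_ne_empty.2 (mem_filter.1 hS).2.1)
      _ ≤ ∑ i, ∑ S ∈ univ.filter (fun S : Finset ι => i ∈ S ∧ S.card ≤ d), co w S ^ 2 := by
          refine le_of_eq (Finset.sum_comm' fun S i => ?_)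
          simp only [mem_filter, mem_univ, true_and, and_true]
          exact ⟨fun h => ⟨h.2, h.1.2⟩, fun h => ⟨⟨ne_empty_of_mem h.1, h.2⟩, h.1⟩⟩
      _ ≤ ∑ i, δ i / d := Finset.sum_le_sum fun i _ => hlow i
      _ = _ := by rw [← Finset.sum_div, hδsum]
  have hsplit : vari g = ∑ S ∈ univ.filter (fun S : Finset ι => S ≠ ∅ ∧ S.card ≤ d), co g S ^ 2 +
      ∑ S ∈ univ.filter (fun S : Finset ι => ¬S.card ≤ d), co g S ^ 2 := by
    rw [vari_eq, ← Finset.sum_filter_add_sum_filter_not (univ.filter fun S : Finset ι => S ≠ ∅)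
      (fun S => S.card ≤ d), Finset.filter_filter, Finset.filter_filter]
    congr 1
    refine Finset.sum_congr (Finset.filter_congr fun S _ => ⟨fun h => h.2, fun h => ⟨?_, h⟩⟩)
      fun _ _ => rfl
    rintro rfl
    simp at h
  have hlow2 : ∑ S ∈ univ.filter (fun S : Finset ι => S ≠ ∅ ∧ S.card ≤ d), co g S ^ 2
      ≤ 2 * (I / d) + 2 * (Avg / N) := by
    calc _ ≤ ∑ S ∈ univ.filter (fun S : Finset ι => S ≠ ∅ ∧ S.card ≤ d),
          (2 * co w S ^ 2 + 2 * (co g S - co w S) ^ 2) :=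
          Finset.sum_le_sum fun S _ => by nlinarith [sq_nonneg (co g S - 2 * co w S)]
      _ ≤ _ := by
          rw [Finset.sum_add_distrib, ← Finset.mul_sum, ← Finset.mul_sum]
          refine add_le_add (by linarith [hlowsum]) ?_
          have := Finset.sum_le_sum_of_subset_of_nonneg
            (filter_subset (fun S : Finset ι => S ≠ ∅ ∧ S.card ≤ d) univ)
            (f := fun S => (co g S - co w S) ^ 2) fun S _ _ => sq_nonneg _
          linarith
  rw [hsplit]
  have e1 : I / (2 * d) + (2 * (I / d) + 2 * (Avg / N)) ≤ 4 / d * (2 * I) + 2 / N * Avg := by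
    have : 0 ≤ I / d := by positivity
    have h4 : I / (2 * d) = (I / d) / 2 := by ring
    have h5 : 4 / (d : ℝ) * (2 * I) = 8 * (I / d) := by ring
    have h6 : 2 / N * Avg = 2 * (Avg / N) := by ring
    linarith
  linarith

end Vale.Agent.P238
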