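import Vale.Agent.P238.Block
import Vale.Agent.P238.Leaf

/-!
For cuts, and hence for differences of real functions, exchanges are controlled by small moves.
-/

namespace Vale.Agent.P238

open Finset Filter Topology

variable {d h J : ℕ}

/-- The pair function of a real function. -/
def absKer (φ : Pt d h J → ℝ) : Ker d h J := fun x y => |φ x - φ y|

/-- The pair function of a cut. -/
def cutKer (g : Pt d h J → ℝ) : Ker d h J := fun x y => (g x - g y) ^ 2

theorem near_nonneg : ∀ {J : ℕ} (K : Ker d h J), (∀ x y, 0 ≤ K x y) → 0 ≤ near d h J K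
  | 0, K, hK => by
    rw [near]
    exact add_nonneg
      (div_nonneg (Finset.sum_nonneg fun i _ => mean_nonneg fun x => hK _ _) (Nat.cast_nonneg _))
      (div_nonneg (Finset.sum_nonneg fun i _ => mean_nonneg fun x => hK _ _) (by positivity))
  | J + 1, K, hK => by
    rw [near]
    exact add_nonneg
      (div_nonneg (Finset.sum_nonneg fun i _ => mean_nonneg fun x => hK _ _) (Nat.cast_nonneg _))
      (Finset.sum_nonneg fun c _ => mean_nonneg fun z => near_nonneg _ fun u v => hK _ _)

theorem near_add : ∀ {J : ℕ} (K L : Ker d h J),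
    near d h J (fun x y => K x y + L x y) = near d h J K + near d h J L
  | 0, K, L => by
    simp only [near, mean_add, Finset.sum_add_distrib, add_div]
    ring
  | J + 1, K, L => by
    have e : ∀ c z, near d h J (inKid c z fun x y => K x y + L x y) =
        near d h J (inKid c z K) + near d h J (inKid c z L) := fun c z =>
      near_add (inKid c z K) (inKid c z L)
    simp only [near, e, mean_add, Finset.sum_add_distrib, add_div]
    ring

theorem near_mul (a : ℝ) : ∀ {J : ℕ} (K : Ker d h J),
    near d h J (fun x y => a * K x y) = a * near d h J K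
  | 0, K => by
    simp only [near, mean_mul, ← Finset.mul_sum, mul_div_assoc]
    ring
  | J + 1, K => by
    have e : ∀ c z, near d h J (inKid c z fun x y => a * K x y) =
        a * near d h J (inKid c z K) := fun c z => near_mul a (inKid c z K)
    simp only [near, e, mean_mul, ← Finset.mul_sum, mul_div_assoc]
    ring

theorem near_mono {J : ℕ} {K L : Ker d h J} (hKL : ∀ x y, K x y ≤ L x y) :
    near d h J K ≤ near d h J L := by
  have e := near_add K fun x y => L x y - K x y
  simp only [add_sub_cancel] at e
  have := near_nonneg (fun x y => L x y - K x y) fun x y => sub_nonneg.2 (hKL x y)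
  linarith [e]

theorem far_nonneg : ∀ {J : ℕ} (K : Ker d h J), (∀ x y, 0 ≤ K x y) → 0 ≤ far d h J K
  | 0, K, _ => by rw [far]
  | J + 1, K, hK => by
    rw [far]
    exact add_nonneg (Finset.sum_nonneg fun i _ => mean_nonneg fun x => hK _ _)
      (Finset.sum_nonneg fun c _ => mean_nonneg fun z => far_nonneg _ fun u v => hK _ _)

theorem far_add : ∀ {J : ℕ} (K L : Ker d h J),
    far d h J (fun x y => K x y + L x y) = far d h J K + far d h J L
  | 0, K, L => by simp [far]
  | J + 1, K, L => by
    have e : ∀ c z, far d h J (inKid c z fun x y => K x y + L x y) =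
        far d h J (inKid c z K) + far d h J (inKid c z L) := fun c z =>
      far_add (inKid c z K) (inKid c z L)
    simp only [far, e, mean_add, Finset.sum_add_distrib]
    ring

theorem far_mul (a : ℝ) : ∀ {J : ℕ} (K : Ker d h J),
    far d h J (fun x y => a * K x y) = a * far d h J K
  | 0, K => by simp [far]
  | J + 1, K => by
    have e : ∀ c z, far d h J (inKid c z fun x y => a * K x y) =
        a * far d h J (inKid c z K) := fun c z => far_mul a (inKid c z K)
    simp only [far, e, mean_mul, ← Finset.mul_sum]
    ring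

theorem far_mono {J : ℕ} {K L : Ker d h J} (hKL : ∀ x y, K x y ≤ L x y) :
    far d h J K ≤ far d h J L := by
  have e := far_add K fun x y => L x y - K x y
  simp only [add_sub_cancel] at e
  have := far_nonneg (fun x y => L x y - K x y) fun x y => sub_nonneg.2 (hKL x y)
  linarith [e]

theorem mean_tendsto {α : Type*} [Fintype α] {F : ℕ → α → ℝ} {G : α → ℝ}
    (hF : ∀ x, Tendsto (fun N => F N x) atTop (𝓝 (G x))) :
    Tendsto (fun N => mean (F N)) atTop (𝓝 (mean G)) :=
  (tendsto_finsetSum _ fun x _ => hF x).div_const _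

theorem near_tendsto : ∀ {J : ℕ} {F : ℕ → Ker d h J} {G : Ker d h J},
    (∀ x y, Tendsto (fun N => F N x y) atTop (𝓝 (G x y))) →
      Tendsto (fun N => near d h J (F N)) atTop (𝓝 (near d h J G))
  | 0, F, G, hF => by
    simp only [near]
    exact ((tendsto_finsetSum _ fun i _ => mean_tendsto fun x => hF _ _).div_const _).add
      ((tendsto_finsetSum _ fun i _ => mean_tendsto fun x => hF _ _).div_const _)
  | J + 1, F, G, hF => by
    simp only [near]
    exact ((tendsto_finsetSum _ fun i _ => mean_tendsto fun x => hF _ _).div_const _).add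
      (tendsto_finsetSum _ fun c _ => mean_tendsto fun z => near_tendsto fun u v => hF _ _)

theorem far_tendsto : ∀ {J : ℕ} {F : ℕ → Ker d h J} {G : Ker d h J},
    (∀ x y, Tendsto (fun N => F N x y) atTop (𝓝 (G x y))) →
      Tendsto (fun N => far d h J (F N)) atTop (𝓝 (far d h J G))
  | 0, F, G, _ => by
    simp only [far]
    exact tendsto_const_nhds
  | J + 1, F, G, hF => by
    simp only [far]
    exact (tendsto_finsetSum _ fun i _ => mean_tendsto fun x => hF _ _).add
      (tendsto_finsetSum _ fun c _ => mean_tendsto fun z => far_tendsto fun u v => hF _ _)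

theorem leafShift_injOn (d : ℕ) (i : Fin (4096 ^ d)) :
    Set.InjOn (fun m : ℕ => (leafShift d ^ m) i) (Finset.range (256 ^ d)) := by
  have hpos : 0 < 4096 ^ d := by positivity
  have key : ∀ m : ℕ, (((leafShift d ^ m) i : Fin (4096 ^ d)) : ℕ) = (i.1 + m) % 4096 ^ d := by
    intro m
    induction m with
    | zero => simp [Nat.mod_eq_of_lt i.isLt]
    | succ m ih =>
      haveI : NeZero (4096 ^ d) := ⟨by omega⟩
      rw [pow_succ', Equiv.Perm.mul_apply, leafShift, finRotate_apply, Fin.val_add, ← leafShift,
        ih, Fin.val_one', ← Nat.add_mod, Nat.add_assoc]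
  intro m hm m' hm' e
  have hle : 256 ^ d ≤ 4096 ^ d := Nat.pow_le_pow_left (by norm_num) d
  simp only [Finset.coe_range, Set.mem_Iio] at hm hm'
  have e' : (i.1 + m) ≡ (i.1 + m') [MOD 4096 ^ d] := by
    show (i.1 + m) % _ = (i.1 + m') % _
    rw [← key, ← key]
    exact congrArg Fin.val e
  exact Nat.ModEq.eq_of_lt_of_lt (Nat.ModEq.add_left_cancel' i.1 e') (by omega) (by omega)

theorem vari_le_sum_kidVar {M : ℕ} {γ : Type*} [Fintype γ] [DecidableEq γ]
    (f : (Fin M × γ → Bool) → ℝ) : vari f ≤ ∑ c, kidVar c f := by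
  rw [vari_eq, sum_kidVar, Finset.sum_filter]
  refine Finset.sum_le_sum fun S _ => ?_
  split_ifs with hS
  · have h1 : (1 : ℝ) ≤ occ S := by
      exact_mod_cast Finset.card_pos.2 ((Finset.nonempty_iff_ne_empty.2 hS).image _)
    nlinarith [sq_nonneg (co f S)]
  · positivity

theorem cut_bound (hd : 1 ≤ d) : ∀ (J : ℕ) (g : Pt d h J → ℝ), (∀ x, g x = 0 ∨ g x = 1) →
    far d h J (cutKer g) + 8 * vari g ≤
      32 * (1 + 3 / (d : ℝ) ^ 2) ^ J * near d h J (cutKer g) := by
  intro J
  induction J with
  | zero =>
    intro g hg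
    have hl := leaf_bound (leafShift d) hd (leafShift_injOn d) g hg
    have h0 : 0 ≤ (∑ m ∈ Finset.range (256 ^ d),
        mean fun x => cutKer g x (x ∘ ⇑(leafShift d ^ m))) / (256 : ℝ) ^ d :=
      div_nonneg (Finset.sum_nonneg fun i _ => mean_nonneg fun x => sq_nonneg _) (by positivity)
    rw [far, near, pow_zero, mul_one, zero_add]
    have e1 : 4 / (d : ℝ) * ∑ i, infl g i =
        4 * ((∑ i, mean fun x => cutKer g x (flipAt i x)) / d) := by
      simp only [infl, cutKer]; ring
    have e2 : 2 / (256 : ℝ) ^ d * ∑ m ∈ Finset.range (256 ^ d),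
        (mean fun x => (g x - g (x ∘ ⇑(leafShift d ^ m))) ^ 2) =
        2 * ((∑ m ∈ Finset.range (256 ^ d), mean fun x => cutKer g x (x ∘ ⇑(leafShift d ^ m))) /
          (256 : ℝ) ^ d) := by
      simp only [cutKer]; ring
    linarith [e1, e2]
  | succ J ih =>
    intro g hg
    have hnode := node_bound (q := d) hd g
    have hvar := vari_le_sum_kidVar g
    set r := (3 : ℝ) / (d : ℝ) ^ 2 with hr
    have hr0 : 0 ≤ r := by positivity
    have hpow : (1 : ℝ) ≤ (1 + r) ^ J := one_le_pow₀ (by linarith)
    have hkid : ∀ c, mean (fun z => far d h J (inKid c z (cutKer g))) + 8 * kidVar c g ≤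
        32 * (1 + r) ^ J * mean fun z => near d h J (inKid c z (cutKer g)) := by
      intro c
      rw [kidVar_eq, ← mean_mul, ← mean_mul, ← mean_add]
      exact mean_mono fun z => ih (fun u => g (put c z u)) fun u => hg _
    have hsum : (∑ c, mean fun z => far d h J (inKid c z (cutKer g))) + 8 * ∑ c, kidVar c g ≤
        32 * (1 + r) ^ J * ∑ c, mean fun z => near d h J (inKid c z (cutKer g)) := by
      rw [Finset.mul_sum, Finset.mul_sum, ← Finset.sum_add_distrib]
      exact Finset.sum_le_sum fun c _ => hkid c
    have hfar0 : 0 ≤ ∑ c, mean fun z => far d h J (inKid c z (cutKer g)) :=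
      Finset.sum_nonneg fun c _ => mean_nonneg fun z => far_nonneg _ fun u v => sq_nonneg _
    have hshift : shiftAvg d g = (∑ m ∈ Finset.range d,
        mean fun x => cutKer g x (x ∘ ⇑(onChild (Idx d h J) (kidShift (2 * h) ^ m)))) / (d : ℝ) :=
      rfl
    have hs0 : 0 ≤ shiftAvg d g :=
      div_nonneg (Finset.sum_nonneg fun i _ => mean_nonneg fun x => sq_nonneg _) (Nat.cast_nonneg _)
    have htop : topSwap g =
        ∑ p : Fin h, mean fun x => cutKer g x (x ∘ ⇑(onChild (Idx d h J) (pairSwap p))) := rfl
    have h24 : 24 / (d : ℝ) ^ 2 = 8 * r := by rw [hr]; ring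
    rw [h24] at hnode
    rw [far, near, ← hshift, ← htop, pow_succ]
    nlinarith [mul_le_mul_of_nonneg_left hvar hr0, mul_le_mul_of_nonneg_left hsum
      (by linarith : (0 : ℝ) ≤ 1 + r), mul_nonneg hr0 hfar0,
      mul_le_mul_of_nonneg_right (one_le_mul_of_one_le_of_one_le hpow (by linarith :
        (1 : ℝ) ≤ 1 + r)) hs0]

theorem cut_bound' (hd : 1 ≤ d) (hJ : J ≤ d) (g : Pt d h J → ℝ) (hg : ∀ x, g x = 0 ∨ g x = 1) :
    far d h J (cutKer g) ≤ 864 * near d h J (cutKer g) := by
  have h1 := cut_bound hd J g hg
  have hv : 0 ≤ vari g := by rw [vari_eq]; positivity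
  have hn : 0 ≤ near d h J (cutKer g) := near_nonneg _ fun x y => sq_nonneg _
  have hd' : (1 : ℝ) ≤ d := by exact_mod_cast hd
  have hp : (1 + 3 / (d : ℝ) ^ 2) ^ J ≤ 27 := by
    calc (1 + 3 / (d : ℝ) ^ 2) ^ J ≤ Real.exp (3 / (d : ℝ) ^ 2) ^ J :=
          pow_le_pow_left₀ (by positivity) (by linarith [Real.add_one_le_exp (3 / (d : ℝ) ^ 2)]) J
      _ = Real.exp (J * (3 / (d : ℝ) ^ 2)) := (Real.exp_nat_mul _ J).symm
      _ ≤ Real.exp 3 := by
          refine Real.exp_le_exp.2 ?_
          rw [mul_div_assoc', div_le_iff₀ (by positivity)]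
          have : (J : ℝ) ≤ d := by exact_mod_cast hJ
          nlinarith
      _ = Real.exp 1 ^ 3 := by rw [← Real.exp_nat_mul]; norm_num
      _ ≤ (3 : ℝ) ^ 3 := pow_le_pow_left₀ (Real.exp_pos 1).le
          (by linarith [Real.exp_one_lt_d9]) 3
      _ = 27 := by norm_num
  nlinarith [mul_le_mul_of_nonneg_right hp hn]

/-- Cuts suffice: the inequality for every real function. -/
theorem abs_bound (hd : 1 ≤ d) (hJ : J ≤ d) (φ : Pt d h J → ℝ) :
    far d h J (absKer φ) ≤ 864 * near d h J (absKer φ) := by
  classical
  suffices H : ∀ (k : ℕ) (φ : Pt d h J → ℝ), (Finset.univ.image φ).card ≤ k →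
      far d h J (absKer φ) ≤ 864 * near d h J (absKer φ) from H _ φ le_rfl
  intro k
  induction k with
  | zero =>
    intro φ hφ
    exfalso
    have : (Finset.univ.image φ).Nonempty := Finset.univ_nonempty.image φ
    exact absurd (Finset.card_pos.2 this) (by omega)
  | succ k ih =>
    intro φ hφ
    by_cases h1 : (Finset.univ.image φ).card ≤ k
    · exact ih φ h1
    set V := Finset.univ.image φ with hV
    have hne : V.Nonempty := Finset.univ_nonempty.image φ
    set m := V.max' hne with hm
    by_cases hk : k = 0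
    · have hcst : ∀ x y, φ x = φ y := fun x y =>
        Finset.card_le_one.1 (by omega : V.card ≤ 1) _ (Finset.mem_image_of_mem _ (Finset.mem_univ x))
          _ (Finset.mem_image_of_mem _ (Finset.mem_univ y))
      have e : absKer φ = fun x y => (0 : ℝ) * absKer φ x y := by
        funext x y
        simp [absKer, hcst x y]
      rw [e, far_mul, near_mul]
      simp
    have hne' : (V.erase m).Nonempty := Finset.card_pos.1 (by
      rw [Finset.card_erase_of_mem (Finset.max'_mem V hne)]; omega)
    set m' := (V.erase m).max' hne' with hm'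
    have hlt : m' < m := lt_of_le_of_ne
      (Finset.le_max' V _ (Finset.mem_of_mem_erase (Finset.max'_mem _ hne')))
      (Finset.ne_of_mem_erase (Finset.max'_mem _ hne'))
    have hcase : ∀ x, φ x = m ∨ φ x ≤ m' := fun x => by
      by_cases hx : φ x = m
      · exact Or.inl hx
      · exact Or.inr (Finset.le_max' _ _ (Finset.mem_erase.2
          ⟨hx, Finset.mem_image_of_mem _ (Finset.mem_univ x)⟩))
    set g : Pt d h J → ℝ := fun x => if φ x = m then 1 else 0 with hg
    set ψ : Pt d h J → ℝ := fun x => if φ x = m then m' else φ x with hψ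
    have hsub : Finset.univ.image ψ ⊆ V.erase m := by
      intro v hv
      obtain ⟨x, -, rfl⟩ := Finset.mem_image.1 hv
      simp only [hψ]
      split_ifs with hx
      · exact Finset.max'_mem _ hne'
      · exact Finset.mem_erase.2 ⟨hx, Finset.mem_image_of_mem _ (Finset.mem_univ x)⟩
    have hψk : (Finset.univ.image ψ).card ≤ k := by
      refine (Finset.card_le_card hsub).trans ?_
      rw [Finset.card_erase_of_mem (Finset.max'_mem V hne)]
      omega
    have e : absKer φ = fun x y => absKer ψ x y + (m - m') * cutKer g x y := by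
      funext x y
      simp only [absKer, cutKer, hψ, hg]
      rcases hcase x with hx | hx <;> rcases hcase y with hy | hy
      · simp [hx, hy]
      · simp only [hx, if_true, show φ y ≠ m from fun e => by linarith, if_false]
        rw [abs_of_nonneg (by linarith), abs_of_nonneg (by linarith)]
        ring
      · simp only [hy, if_true, show φ x ≠ m from fun e => by linarith, if_false]
        rw [abs_of_nonpos (by linarith), abs_of_nonpos (by linarith)]
        ring
      · simp [show φ x ≠ m from fun e => by linarith, show φ y ≠ m from fun e => by linarith]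
    rw [e, far_add, near_add, far_mul, near_mul]
    have hg01 : ∀ x, g x = 0 ∨ g x = 1 := fun x => by simp only [hg]; split_ifs <;> simp
    nlinarith [ih ψ hψk, mul_le_mul_of_nonneg_left (cut_bound' hd hJ g hg01)
      (sub_nonneg.2 hlt.le)]

/-- The inequality for every map into summable sequences. -/
theorem sum_bound (hd : 1 ≤ d) (hJ : J ≤ d) (F : Pt d h J → ℕ → ℝ)
    (hF : ∀ x, Summable fun i => |F x i|) :
    far d h J (fun x y => ∑' i, |F x i - F y i|) ≤
      864 * near d h J (fun x y => ∑' i, |F x i - F y i|) := by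
  have hs : ∀ x y, Summable fun i => |F x i - F y i| := fun x y =>
    Summable.of_nonneg_of_le (fun i => abs_nonneg _) (fun i => abs_sub _ _) ((hF x).add (hF y))
  set P : ℕ → Ker d h J := fun N x y => ∑ i ∈ Finset.range N, |F x i - F y i| with hP
  have hN : ∀ N, far d h J (P N) ≤ 864 * near d h J (P N) := by
    intro N
    induction N with
    | zero =>
      have e : P 0 = fun x y => (0 : ℝ) * absKer (fun _ => (0 : ℝ)) x y := by
        funext x y; simp [hP]
      rw [e, far_mul, near_mul]; simp
    | succ N ihN =>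
      have e : P (N + 1) = fun x y => P N x y + absKer (fun x => F x N) x y := by
        funext x y; simp [hP, Finset.sum_range_succ, absKer]
      rw [e, far_add, near_add]
      linarith [abs_bound hd hJ fun x => F x N]
  exact le_of_tendsto_of_tendsto (far_tendsto fun x y => (hs x y).hasSum.tendsto_sum_nat)
    ((near_tendsto fun x y => (hs x y).hasSum.tendsto_sum_nat).const_mul 864)
    (Filter.Eventually.of_forall hN)

end Vale.Agent.P238
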