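import Vale.Agent.P238.Cut
import Vale.Agent.P238.Budget

/-!
The lower bound on the distortion of edit distance into summable sequences.
-/

namespace Vale.Agent.P238

open Finset

theorem size_eq (d h : ℕ) : ∀ J, size d h J = (2 * h) ^ J * 4096 ^ d
  | 0 => by simp [size]
  | J + 1 => by rw [size, size_eq d h J, pow_succ]; ring

theorem lp_norm_eq (u : lp (fun _ : ℕ => ℝ) 1) : ‖u‖ = ∑' i, |u i| := by
  rw [lp.norm_eq_tsum_rpow (by norm_num : 0 < (1 : ENNReal).toReal)]
  simp

theorem lp_summable (u : lp (fun _ : ℕ => ℝ) 1) : Summable fun i => |u i| := by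
  simpa using (lp.memℓp u).summable (by norm_num : 0 < (1 : ENNReal).toReal)

theorem ofFn_pad {L r : ℕ} (w : Fin L → Bool) :
    List.ofFn (Fin.append w fun _ : Fin r => false) = List.ofFn w ++ List.replicate r false := by
  rw [List.ofFn_fin_append, List.ofFn_const]

/-- The filling of a tree as a function on the positions of its word. -/
def wordFn {d h J : ℕ} (x : Pt d h J) : Fin (size d h J) → Bool := fun i => x (place d h J i)

/-- Distortion of words of any length at least that of a tree. -/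
theorem tree_bound {d J n : ℕ} (hd : 1 ≤ d) (hJ : J ≤ d) (hn : size d (d ^ 3) J ≤ n)
    (F : (Fin n → Bool) → lp (fun _ : ℕ => ℝ) 1) (A B : ℝ)
    (hA : ∀ x y, ‖F x - F y‖ ≤ A * ed (List.ofFn x) (List.ofFn y))
    (hB : ∀ x y, (ed (List.ofFn x) (List.ofFn y) : ℝ) ≤ B * ‖F x - F y‖) :
    (J : ℝ) * d ≤ 663552 * (A * B) := by
  obtain ⟨r, rfl⟩ := Nat.exists_eq_add_of_le hn
  have hsz := size_eq d (d ^ 3) J
  have hL0 : 0 < size d (d ^ 3) J := by
    rw [hsz]
    have : 0 < d ^ 3 := by positivity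
    positivity
  obtain ⟨hA0, hB0⟩ : 0 ≤ A ∧ 0 ≤ B := by
    set x : Fin (size d (d ^ 3) J + r) → Bool := fun _ => false
    set y : Fin (size d (d ^ 3) J + r) → Bool := fun _ => true
    have hne : List.ofFn x ≠ List.ofFn y := fun e =>
      Bool.false_ne_true (congrFun (List.ofFn_injective e) ⟨0, by omega⟩)
    have hpos : (0 : ℝ) < ed (List.ofFn x) (List.ofFn y) := by
      refine Nat.cast_pos.2 (Nat.pos_of_ne_zero fun h0 => hne ?_)
      have := reach_ed (List.ofFn x) (List.ofFn y)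
      rw [h0] at this
      exact this
    have h1 := hA x y
    have h2 := hB x y
    have h3 := norm_nonneg (F x - F y)
    have hB0 : 0 < B := by
      by_contra hc
      nlinarith
    have hN : 0 < ‖F x - F y‖ := by
      by_contra hc
      nlinarith
    refine ⟨?_, hB0.le⟩
    by_contra hc
    nlinarith
  set e : Pt d (d ^ 3) J → Fin (size d (d ^ 3) J + r) → Bool := fun x =>
    Fin.append (wordFn x) fun _ => false with he
  set s : List Bool := List.replicate r false
  have hw : ∀ x, List.ofFn (e x) = [] ++ word x ++ s := fun x => by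
    rw [he, ofFn_pad]; rfl
  set K : Ker d (d ^ 3) J := fun x y => ‖F (e x) - F (e y)‖ with hK
  have hKsum : K = fun x y => ∑' i, |F (e x) i - F (e y) i| := by
    funext x y
    simp only [hK]
    rw [lp_norm_eq]
    simp
  have hKbound : far d (d ^ 3) J K ≤ 864 * near d (d ^ 3) J K := by
    rw [hKsum]
    exact sum_bound hd hJ (fun x i => F (e x) i) fun x => lp_summable _
  have h1 : (J : ℝ) * (size d (d ^ 3) J : ℝ) / 256 ≤ B * far d (d ^ 3) J K := by
    rw [← far_mul]
    refine (far_ed hd [] s).trans (far_mono fun x y => ?_)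
    rw [← hw, ← hw]
    exact hB _ _
  have h2 : near d (d ^ 3) J K ≤ A * (3 * (size d (d ^ 3) J : ℝ) / d) := by
    refine le_trans ?_ (mul_le_mul_of_nonneg_left (near_ed hd hJ) hA0)
    rw [← near_mul]
    refine near_mono fun x y => (hA _ _).trans (mul_le_mul_of_nonneg_left ?_ hA0)
    rw [hw, hw]
    exact_mod_cast ed_context [] s (word x) (word y)
  have h3 : (J : ℝ) * (size d (d ^ 3) J : ℝ) / 256 ≤ B * (864 * (A * (3 * (size d (d ^ 3) J : ℝ) / d))) :=
    h1.trans (mul_le_mul_of_nonneg_left (hKbound.trans (by linarith)) hB0)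
  have hd0 : (0 : ℝ) < d := by exact_mod_cast hd
  have hL1 : (0 : ℝ) < (size d (d ^ 3) J : ℝ) := by exact_mod_cast hL0
  have h4 : (J : ℝ) * (size d (d ^ 3) J : ℝ) / 256 * (256 * d / (size d (d ^ 3) J : ℝ)) ≤
      B * (864 * (A * (3 * (size d (d ^ 3) J : ℝ) / d))) * (256 * d / (size d (d ^ 3) J : ℝ)) :=
    mul_le_mul_of_nonneg_right h3 (by positivity)
  calc (J : ℝ) * d = (J : ℝ) * (size d (d ^ 3) J : ℝ) / 256 * (256 * d / (size d (d ^ 3) J : ℝ)) := by field_simp
    _ ≤ _ := h4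
    _ = 663552 * (A * B) := by field_simp; ring

theorem two_mul_cube_lt : ∀ d : ℕ, 64 ≤ d → 2 * d ^ 3 < 2 ^ d := by
  intro d hd
  induction d, hd using Nat.le_induction with
  | base => norm_num
  | succ d hd ih =>
    rw [pow_succ 2 d]
    nlinarith [Nat.mul_le_mul_left (d * d) hd, Nat.mul_le_mul_left d hd]

/-- The lower bound. -/
theorem lower_bound : ∃ c : ℝ, 0 < c ∧ ∃ N : ℕ, ∀ n : ℕ, N ≤ n →
    ∀ (F : (Fin n → Bool) → lp (fun _ : ℕ => ℝ) 1) (A B : ℝ),
      (∀ x y, ‖F x - F y‖ ≤ A * ed (List.ofFn x) (List.ofFn y)) →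
      (∀ x y, (ed (List.ofFn x) (List.ofFn y) : ℝ) ≤ B * ‖F x - F y‖) →
      c * Real.log n ^ 2 / Real.log (Real.log n) ≤ A * B := by
  refine ⟨1 / (663552 * 26 * 26 * 10), by norm_num, 2 ^ (13 * 64), fun n hn F A B hA hB => ?_⟩
  have hn0 : n ≠ 0 := fun h => by simp [h] at hn
  set d := Nat.log 2 n / 13 with hd
  have hd64 : 64 ≤ d := by
    rw [hd, Nat.le_div_iff_mul_le (by norm_num)]
    exact (Nat.le_log_iff_pow_le (by norm_num) hn0).2 (Nat.mul_comm 64 13 ▸ hn)
  set ℓ := Nat.log 2 (2 * d ^ 3) + 1 with hℓ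
  have hℓd : ℓ ≤ d := by
    rw [hℓ]
    exact Nat.succ_le_of_lt ((Nat.log_lt_iff_lt_pow (by norm_num) (by positivity)).2
      (two_mul_cube_lt d hd64))
  set J := d / ℓ with hJ
  have hJd : J ≤ d := Nat.div_le_self _ _
  have hℓ0 : 0 < ℓ := Nat.succ_pos _
  have hsize : size d (d ^ 3) J ≤ n := by
    rw [size_eq]
    calc (2 * d ^ 3) ^ J * 4096 ^ d ≤ (2 ^ ℓ) ^ J * 4096 ^ d :=
          Nat.mul_le_mul_right _ (Nat.pow_le_pow_left (Nat.lt_pow_succ_log_self (by norm_num) _).le _)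
      _ = 2 ^ (ℓ * J + 12 * d) := by
          rw [show (4096 : ℕ) = 2 ^ 12 by norm_num, ← pow_mul, ← pow_mul, ← pow_add]
      _ ≤ 2 ^ Nat.log 2 n := Nat.pow_le_pow_right (by norm_num) (by
          have := Nat.div_mul_le_self d ℓ
          rw [mul_comm ℓ J, hJ]
          have := Nat.div_mul_le_self (Nat.log 2 n) 13
          rw [← hd] at this
          omega)
      _ ≤ n := Nat.pow_log_le_self 2 hn0
  have hb := tree_bound (by omega : 1 ≤ d) hJd hsize F A B hA hB
  have hl2 : (0.69 : ℝ) < Real.log 2 := by linarith [Real.log_two_gt_d9]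
  have hl2' : Real.log 2 < (0.7 : ℝ) := by linarith [Real.log_two_lt_d9]
  have hnpos : (0 : ℝ) < n := by exact_mod_cast Nat.pos_of_ne_zero hn0
  have hlog_hi : Real.log n ≤ 26 * d * Real.log 2 := by
    have h1 : n < 2 ^ (13 * d + 13) := by
      refine (Nat.lt_pow_succ_log_self (by norm_num : 1 < 2) n).trans_le
        (Nat.pow_le_pow_right (by norm_num) ?_)
      have := Nat.div_add_mod (Nat.log 2 n) 13
      have := Nat.mod_lt (Nat.log 2 n) (by norm_num : 0 < 13)
      omega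
    calc Real.log n ≤ Real.log ((2 : ℝ) ^ (13 * d + 13)) :=
          Real.log_le_log hnpos (by exact_mod_cast h1.le)
      _ = (13 * d + 13) * Real.log 2 := by rw [Real.log_pow]; push_cast; ring
      _ ≤ 26 * d * Real.log 2 := by
          refine mul_le_mul_of_nonneg_right ?_ (by linarith)
          have : (1 : ℝ) ≤ d := by exact_mod_cast (by omega : 1 ≤ d)
          linarith
  have hlog_lo : (d : ℝ) ≤ Real.log n := by
    have h1 : 2 ^ (13 * d) ≤ n := le_trans (Nat.pow_le_pow_right (by norm_num) (by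
      have := Nat.div_mul_le_self (Nat.log 2 n) 13
      omega)) (Nat.pow_log_le_self 2 hn0)
    calc (d : ℝ) ≤ 13 * d * Real.log 2 := by
          nlinarith [(Nat.cast_nonneg d : (0 : ℝ) ≤ d)]
      _ = Real.log ((2 : ℝ) ^ (13 * d)) := by rw [Real.log_pow]; push_cast; ring
      _ ≤ Real.log n := Real.log_le_log (by positivity) (by exact_mod_cast h1)
  have hd64' : (64 : ℝ) ≤ d := by exact_mod_cast hd64
  have hdlog : Real.log (64 : ℝ) ≤ Real.log d := Real.log_le_log (by norm_num) hd64'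
  have h64 : Real.log (64 : ℝ) = 6 * Real.log 2 := by
    rw [show (64 : ℝ) = 2 ^ 6 by norm_num, Real.log_pow]; norm_num
  set LL := Real.log (Real.log n) with hLL
  have hLLd : Real.log d ≤ LL := Real.log_le_log (by linarith) hlog_lo
  have hℓle : (ℓ : ℝ) * Real.log 2 ≤ 4 * LL := by
    have h1 : 2 ^ ℓ ≤ 4 * d ^ 3 := by
      rw [hℓ, pow_succ]
      have := Nat.pow_log_le_self 2 (x := 2 * d ^ 3) (by positivity)
      omega
    have h2 : Real.log ((2 : ℝ) ^ ℓ) ≤ Real.log (4 * (d : ℝ) ^ 3) :=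
      Real.log_le_log (by positivity) (by exact_mod_cast h1)
    rw [Real.log_pow, Real.log_mul (by norm_num) (by positivity), Real.log_pow,
      show (4 : ℝ) = 2 ^ 2 by norm_num, Real.log_pow] at h2
    push_cast at h2
    linarith
  have hℓ10 : (ℓ : ℝ) ≤ 10 * LL := by nlinarith
  have hJℓ : (d : ℝ) ≤ 2 * (J * ℓ) := by
    have h1 : 1 ≤ J := (Nat.one_le_div_iff hℓ0).2 hℓd
    have h2 := Nat.div_add_mod d ℓ
    have h3 := Nat.mod_lt d hℓ0
    have : d ≤ 2 * (J * ℓ) := by
      rw [← hJ] at h2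
      have : ℓ ≤ J * ℓ := Nat.le_mul_of_pos_left ℓ (by omega)
      rw [mul_comm ℓ J] at h2
      omega
    exact_mod_cast this
  have hLL0 : 0 < LL := by linarith
  rw [div_le_iff₀ hLL0]
  have hAB : 0 ≤ A * B := by
    have : (0 : ℝ) ≤ (J : ℝ) * d := by positivity
    linarith
  have hd2 : (d : ℝ) ^ 2 ≤ 20 * (663552 * (A * B)) * LL := by
    calc (d : ℝ) ^ 2 ≤ 2 * (J * ℓ) * d := by nlinarith
      _ = 2 * ℓ * ((J : ℝ) * d) := by ring
      _ ≤ 2 * ℓ * (663552 * (A * B)) := mul_le_mul_of_nonneg_left hb (by positivity)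
      _ ≤ 2 * (10 * LL) * (663552 * (A * B)) :=
          mul_le_mul_of_nonneg_right (by linarith) (by positivity)
      _ = _ := by ring
  have hlogsq : Real.log n ^ 2 ≤ 26 * 26 * (1 / 2) * (d : ℝ) ^ 2 := by
    have h0 : 0 ≤ Real.log n := by linarith
    have : Real.log n ^ 2 ≤ (26 * d * Real.log 2) ^ 2 := pow_le_pow_left₀ h0 hlog_hi 2
    refine this.trans ?_
    rw [mul_pow, mul_pow]
    have : Real.log 2 ^ 2 ≤ 1 / 2 := by nlinarith
    nlinarith
  nlinarith

end Vale.Agent.P238
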