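import Vale.Agent.P238.Cube

/-!
Exchanging neighbouring children at one node.
-/

namespace Vale.Agent.P238

open Finset

/-- Averages along the orbit of a permutation control one step. -/
theorem step_le_orbit {κ : Type*} [DecidableEq κ] (A : Finset κ) (τ : Equiv.Perm κ)
    (hτ : ∀ S, τ S ∈ A ↔ S ∈ A) (a : κ → ℝ) {q : ℕ} (hq : 1 ≤ q) :
    ∑ S ∈ A, (a S - a (τ S)) ^ 2 ≤
      6 / (q : ℝ) * ∑ m ∈ Finset.range q, ∑ S ∈ A, (a S - a ((τ ^ m) S)) ^ 2 +
        12 / (q : ℝ) ^ 2 * ∑ S ∈ A, a S ^ 2 := by
  have hq0 : (0 : ℝ) < q := by exact_mod_cast hq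
  have hpow : ∀ (m : ℕ) S, (τ ^ m) S ∈ A ↔ S ∈ A := by
    intro m
    induction m with
    | zero => simp
    | succ m ih => intro S; rw [pow_succ', Equiv.Perm.mul_apply, hτ, ih]
  have reindex : ∀ (m : ℕ) (φ : κ → ℝ), ∑ S ∈ A, φ ((τ ^ m) S) = ∑ S ∈ A, φ S := fun m φ =>
    Finset.sum_equiv (τ ^ m) (fun S => (hpow m S).symm) fun S _ => rfl
  set av : κ → ℝ := fun S => (∑ m ∈ Finset.range q, a ((τ ^ m) S)) / q with hav
  have h1 : ∀ S, av S - av (τ S) = (a S - a ((τ ^ q) S)) / q := by
    intro S
    have e := Finset.sum_range_sub' (fun m => a ((τ ^ m) S)) q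
    simp only [Finset.sum_sub_distrib, pow_zero, Equiv.Perm.one_apply] at e
    rw [hav, ← sub_div, ← e]
    simp [pow_succ]
  have h2 : ∀ S, (a S - av S) ^ 2 ≤ (∑ m ∈ Finset.range q, (a S - a ((τ ^ m) S)) ^ 2) / q := by
    intro S
    have hs := Finset.sum_mul_sq_le_sq_mul_sq (Finset.range q)
      (fun _ => (1 : ℝ)) (fun m => a S - a ((τ ^ m) S))
    simp only [one_pow, one_mul, Finset.sum_const, Finset.card_range, nsmul_eq_mul, mul_one] at hs
    have e : a S - av S = (∑ m ∈ Finset.range q, (a S - a ((τ ^ m) S))) / q := by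
      simp only [hav, Finset.sum_sub_distrib, Finset.sum_const, Finset.card_range, nsmul_eq_mul]
      field_simp
    rw [e, div_pow, div_le_div_iff₀ (by positivity) hq0]
    nlinarith [mul_le_mul_of_nonneg_right hs hq0.le]
  have h3 : ∀ S, (a S - a (τ S)) ^ 2 ≤ 3 * (a S - av S) ^ 2 + 3 * (a (τ S) - av (τ S)) ^ 2 +
      6 / (q : ℝ) ^ 2 * a S ^ 2 + 6 / (q : ℝ) ^ 2 * a ((τ ^ q) S) ^ 2 := by
    intro S
    have e : a S - a (τ S) = (a S - av S) - (a (τ S) - av (τ S)) +
        (a S - a ((τ ^ q) S)) / q := by rw [← h1]; ring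
    have e2 : ((a S - a ((τ ^ q) S)) / q) ^ 2 ≤
        2 / (q : ℝ) ^ 2 * a S ^ 2 + 2 / (q : ℝ) ^ 2 * a ((τ ^ q) S) ^ 2 := by
      rw [div_pow, div_mul_eq_mul_div, div_mul_eq_mul_div, ← add_div]
      refine div_le_div_of_nonneg_right ?_ (by positivity)
      nlinarith [sq_nonneg (a S + a ((τ ^ q) S))]
    rw [e]
    have : (6 : ℝ) / (q : ℝ) ^ 2 = 3 * (2 / (q : ℝ) ^ 2) := by ring
    rw [this]
    generalize a S - av S = u
    generalize a (τ S) - av (τ S) = v
    generalize (a S - a ((τ ^ q) S)) / (q : ℝ) = w at e2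
    nlinarith [sq_nonneg (u + v), sq_nonneg (u - w), sq_nonneg (v + w)]
  have h4 : ∑ S ∈ A, (a (τ S) - av (τ S)) ^ 2 = ∑ S ∈ A, (a S - av S) ^ 2 := by
    simpa using reindex 1 fun S => (a S - av S) ^ 2
  have h5 := reindex q fun S => a S ^ 2
  have h6 : ∑ S ∈ A, (a S - av S) ^ 2 ≤
      (∑ m ∈ Finset.range q, ∑ S ∈ A, (a S - a ((τ ^ m) S)) ^ 2) / q := by
    rw [Finset.sum_comm, Finset.sum_div]
    exact Finset.sum_le_sum fun S _ => h2 S
  refine (Finset.sum_le_sum fun S _ => h3 S).trans ?_
  simp only [Finset.sum_add_distrib, ← Finset.mul_sum, h4, h5]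
  rw [div_mul_eq_mul_div (6 : ℝ) (q : ℝ)]
  rw [le_div_iff₀ hq0] at h6
  have : 6 * (∑ S ∈ A, (a S - av S) ^ 2) ≤
      6 * (∑ m ∈ Finset.range q, ∑ S ∈ A, (a S - a ((τ ^ m) S)) ^ 2) / q := by
    rw [le_div_iff₀ hq0]; linarith
  have e12 : (12 : ℝ) / (q : ℝ) ^ 2 * ∑ S ∈ A, a S ^ 2 =
      2 * (6 / (q : ℝ) ^ 2 * ∑ S ∈ A, a S ^ 2) := by ring
  linarith

variable {M : ℕ} {γ : Type*} [Fintype γ] [DecidableEq γ]

/-- A permutation of the children, acting on the positions. -/
def onChild (γ : Type*) (π : Equiv.Perm (Fin M)) : Equiv.Perm (Fin M × γ) :=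
  Equiv.prodCongr π (Equiv.refl γ)

/-- The children met by a set of positions. -/
def kids (S : Finset (Fin M × γ)) : Finset (Fin M) := S.image Prod.fst

/-- The number of children met by a set of positions. -/
def occ (S : Finset (Fin M × γ)) : ℕ := (kids S).card

/-- The action on sets of positions of a permutation of the children. -/
def onSets (π : Equiv.Perm (Fin M)) : Equiv.Perm (Finset (Fin M × γ)) :=
  Equiv.finsetCongr (onChild γ π)

theorem onSets_apply (π : Equiv.Perm (Fin M)) (S : Finset (Fin M × γ)) :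
    onSets π S = S.map (onChild γ π).toEmbedding := rfl

theorem onChild_one : onChild γ (1 : Equiv.Perm (Fin M)) = 1 := by
  apply Equiv.ext
  intro x
  rfl

theorem onSets_one (S : Finset (Fin M × γ)) : onSets (1 : Equiv.Perm (Fin M)) S = S := by
  rw [onSets_apply, onChild_one, Finset.map_eq_image]
  exact Finset.image_id

theorem onSets_pow (π : Equiv.Perm (Fin M)) (m : ℕ) :
    (onSets (γ := γ) π) ^ m = onSets (π ^ m) := by
  induction m with
  | zero =>
    apply Equiv.ext; intro S
    rw [pow_zero, pow_zero, onSets_one]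
    rfl
  | succ m ih =>
    rw [pow_succ', pow_succ', ih]
    apply Equiv.ext; intro S
    simp only [Equiv.Perm.mul_apply, onSets_apply, Finset.map_map]
    rfl

theorem occ_onSets (π : Equiv.Perm (Fin M)) (S : Finset (Fin M × γ)) :
    occ (onSets π S) = occ S := by
  have : kids (onSets π S) = (kids S).map π.toEmbedding := by
    simp [kids, onSets_apply, Finset.map_eq_image, Finset.image_image, Function.comp_def, onChild]
  rw [occ, this, Finset.card_map]
  rfl

theorem onSets_congr {π π' : Equiv.Perm (Fin M)} {S : Finset (Fin M × γ)}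
    (h : ∀ c ∈ kids S, π c = π' c) : onSets π S = onSets π' S := by
  simp only [onSets_apply, Finset.map_eq_image]
  refine Finset.image_congr fun x hx => ?_
  exact Prod.ext (h x.1 (Finset.mem_image_of_mem _ hx)) rfl

theorem onSets_eq_self {π : Equiv.Perm (Fin M)} {S : Finset (Fin M × γ)}
    (h : ∀ c ∈ kids S, π c = c) : onSets π S = S := by
  rw [onSets_congr (π' := 1) (by simpa using h), onSets_one]

/-- The coefficient of a function whose children are permuted. -/
theorem co_onChild (π : Equiv.Perm (Fin M)) (f : (Fin M × γ → Bool) → ℝ)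
    (S : Finset (Fin M × γ)) :
    co (fun x => f (x ∘ ⇑(onChild γ π))) S = co f (onSets π⁻¹ S) := by
  rw [co_permute]
  rfl

theorem onChild_pow (π : Equiv.Perm (Fin M)) (m : ℕ) :
    (onChild γ π) ^ m = onChild γ (π ^ m) := by
  induction m with
  | zero => apply Equiv.ext; intro x; simp [onChild]
  | succ m ih =>
    rw [pow_succ', pow_succ', ih]
    apply Equiv.ext; intro x
    rfl

variable {h : ℕ}

/-- The first child of a pair of neighbours. -/
def evenKid (p : Fin h) : Fin (2 * h) := ⟨2 * p.1, by omega⟩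

/-- The second child of a pair of neighbours. -/
def oddKid (p : Fin h) : Fin (2 * h) := ⟨2 * p.1 + 1, by omega⟩

/-- The exchange of a pair of neighbouring children. -/
def pairSwap (p : Fin h) : Equiv.Perm (Fin (2 * h)) := Equiv.swap (evenKid p) (oddKid p)

/-- The cyclic shift of the children. -/
def kidShift (n : ℕ) : Equiv.Perm (Fin n) := finRotate n

theorem kidShift_evenKid (p : Fin h) : kidShift (2 * h) (evenKid p) = oddKid p := by
  have key : ∀ (n : ℕ) (i : Fin n) (hi : i.1 + 1 < n), finRotate n i = ⟨i.1 + 1, hi⟩ := by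
    intro n i hi
    obtain ⟨m, rfl⟩ : ∃ m, n = m + 1 := ⟨n - 1, by omega⟩
    rw [finRotate_apply]
    ext
    simp [Fin.val_add, Nat.mod_eq_of_lt hi]
  exact key _ _ (show 2 * p.1 + 1 < 2 * h by have := p.isLt; omega)

theorem pairSwap_fix (p : Fin h) (c : Fin (2 * h)) (h0 : c ≠ evenKid p) (h1 : c ≠ oddKid p) :
    pairSwap p c = c :=
  Equiv.swap_apply_of_ne_of_ne h0 h1

theorem moved_le (S : Finset (Fin (2 * h) × γ)) :
    (Finset.univ.filter fun p : Fin h => onSets (pairSwap p) S ≠ S).card ≤ occ S := by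
  refine Finset.card_le_card_of_injOn
    (fun p => if evenKid p ∈ kids S then evenKid p else oddKid p) (fun p hp => ?_) ?_
  · simp only [Finset.coe_filter, Finset.mem_univ, true_and, Set.mem_setOf_eq] at hp
    simp only [Finset.mem_coe]
    split_ifs with he
    · exact he
    · by_contra ho
      exact hp (onSets_eq_self fun c hc => pairSwap_fix p c (fun e => he (e ▸ hc))
        (fun e => ho (e ▸ hc)))
  · intro p _ p' _ hpp
    simp only at hpp
    apply Fin.ext
    split_ifs at hpp <;> simp [evenKid, oddKid, Fin.ext_iff] at hpp <;> omega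

/-- The squared change under exchanging neighbouring children, summed over the pairs. -/
noncomputable def topSwap (f : (Fin (2 * h) × γ → Bool) → ℝ) : ℝ :=
  ∑ p : Fin h, mean fun x => (f x - f (x ∘ ⇑(onChild γ (pairSwap p)))) ^ 2

/-- The mean squared change under small shifts of the children. -/
noncomputable def shiftAvg (q : ℕ) (f : (Fin M × γ → Bool) → ℝ) : ℝ :=
  (∑ m ∈ Finset.range q, mean fun x => (f x - f (x ∘ ⇑(onChild γ (kidShift M ^ m)))) ^ 2) / q

/-- The mean variance in the child `c`. -/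
noncomputable def kidVar (c : Fin M) (f : (Fin M × γ → Bool) → ℝ) : ℝ :=
  ∑ S ∈ Finset.univ.filter (fun S => c ∈ kids S), co f S ^ 2

theorem sum_kidVar (f : (Fin M × γ → Bool) → ℝ) :
    ∑ c, kidVar c f = ∑ S : Finset (Fin M × γ), (occ S : ℝ) * co f S ^ 2 := by
  simp only [kidVar, Finset.sum_filter]
  rw [Finset.sum_comm]
  refine Finset.sum_congr rfl fun S _ => ?_
  rw [← Finset.sum_filter]
  simp [occ]

theorem node_bound {q : ℕ} (hq : 1 ≤ q) (f : (Fin (2 * h) × γ → Bool) → ℝ) :
    topSwap f + 8 * vari f ≤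
      8 * ∑ c, kidVar c f + 12 * shiftAvg q f + 24 / (q : ℝ) ^ 2 * vari f := by
  set a : Finset (Fin (2 * h) × γ) → ℝ := co f with ha
  set D : Fin h → Finset (Fin (2 * h) × γ) → ℝ :=
    fun p S => (a S - a (onSets (pairSwap p) S)) ^ 2 with hD
  set τ : Equiv.Perm (Finset (Fin (2 * h) × γ)) := onSets (kidShift (2 * h))⁻¹ with hτdef
  set one := (Finset.univ.filter fun S : Finset (Fin (2 * h) × γ) => occ S = 1) with hone
  set many := (Finset.univ.filter fun S : Finset (Fin (2 * h) × γ) => 2 ≤ occ S) with hmany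
  have htop : topSwap f = ∑ p, ∑ S, D p S := by
    refine Finset.sum_congr rfl fun p _ => ?_
    rw [mean_sq_sub]
    refine Finset.sum_congr rfl fun S _ => ?_
    rw [co_onChild, pairSwap, Equiv.swap_inv]
    rfl
  have hsplit : ∀ p, ∑ S, D p S = (∑ S ∈ one, D p S) + ∑ S ∈ many, D p S := by
    intro p
    rw [hone, hmany, Finset.sum_filter, Finset.sum_filter, ← Finset.sum_add_distrib]
    refine Finset.sum_congr rfl fun S _ => ?_
    rcases Nat.lt_or_ge (occ S) 2 with hS | hS
    · interval_cases hS' : occ S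
      · have hk : kids S = ∅ := Finset.card_eq_zero.1 hS'
        simp [hD, onSets_eq_self (π := pairSwap p) (S := S) (by simp [hk])]
      · simp
    · simp [hS, show occ S ≠ 1 by omega]
  have hmanyB : ∑ p, ∑ S ∈ many, D p S ≤
      ∑ S ∈ many, 8 * (((occ S : ℝ) - 1) * a S ^ 2) := by
    have hb : ∀ p, ∑ S ∈ many, D p S ≤
        ∑ S ∈ many, if onSets (pairSwap p) S ≠ S then 4 * a S ^ 2 else 0 := by
      intro p
      set σ : Equiv.Perm (Finset (Fin (2 * h) × γ)) := onSets (pairSwap p) with hσ
      have hinv : ∀ S, σ (σ S) = S := by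
        intro S
        rw [hσ, ← Equiv.Perm.mul_apply, ← sq, onSets_pow, sq, pairSwap, Equiv.swap_mul_self,
          onSets_one]
      have hre : ∑ S ∈ many, (if σ S ≠ S then 2 * a (σ S) ^ 2 else 0) =
          ∑ S ∈ many, if σ S ≠ S then 2 * a S ^ 2 else 0 := by
        refine Finset.sum_equiv σ (fun S => by simp [hmany, hσ, occ_onSets]) fun S _ => ?_
        rw [hinv]
        simp [ne_comm]
      calc ∑ S ∈ many, D p S
          ≤ ∑ S ∈ many, ((if σ S ≠ S then 2 * a S ^ 2 else 0) +
              if σ S ≠ S then 2 * a (σ S) ^ 2 else 0) := by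
            refine Finset.sum_le_sum fun S _ => ?_
            by_cases hS : σ S = S
            · simp [hD, ← hσ, hS]
            · simp only [hD, ← hσ, ne_eq, hS, not_false_eq_true, if_true]
              nlinarith [sq_nonneg (a S + a (σ S))]
        _ = _ := by
            rw [Finset.sum_add_distrib, hre, ← Finset.sum_add_distrib]
            refine Finset.sum_congr rfl fun S _ => ?_
            split_ifs <;> ring
    refine (Finset.sum_le_sum fun p _ => hb p).trans ?_
    rw [Finset.sum_comm]
    refine Finset.sum_le_sum fun S hS => ?_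
    rw [← Finset.sum_filter, Finset.sum_const, nsmul_eq_mul]
    have h2 : (2 : ℝ) ≤ occ S := by exact_mod_cast (Finset.mem_filter.1 hS).2
    have hle := moved_le (γ := γ) S
    calc _ ≤ (occ S : ℝ) * (4 * a S ^ 2) :=
          mul_le_mul_of_nonneg_right (by exact_mod_cast hle) (by positivity)
      _ ≤ _ := by nlinarith [sq_nonneg (a S), mul_nonneg (sub_nonneg.2 h2) (sq_nonneg (a S))]
  have hτmem : ∀ S, τ S ∈ one ↔ S ∈ one := fun S => by simp [hone, hτdef, occ_onSets]
  have honeB : ∑ p, ∑ S ∈ one, D p S ≤ 2 * ∑ S ∈ one, (a S - a (τ S)) ^ 2 := by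
    have hsym : ∑ S ∈ one, (a S - a (τ.symm S)) ^ 2 = ∑ S ∈ one, (a S - a (τ S)) ^ 2 := by
      refine Finset.sum_equiv τ.symm (fun S => ?_) fun S _ => ?_
      · conv_lhs => rw [← τ.apply_symm_apply S, hτmem]
      · rw [τ.apply_symm_apply]; ring
    calc ∑ p, ∑ S ∈ one, D p S
        = ∑ S ∈ one, ∑ p, D p S := Finset.sum_comm
      _ ≤ ∑ S ∈ one, ((a S - a (τ S)) ^ 2 + (a S - a (τ.symm S)) ^ 2) := by
          refine Finset.sum_le_sum fun S hS => ?_
          obtain ⟨c, hc⟩ := Finset.card_eq_one.1 (Finset.mem_filter.1 hS).2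
          have hp : c.1 / 2 < h := by omega
          rw [Finset.sum_eq_single (⟨c.1 / 2, hp⟩ : Fin h) (fun p _ hpne => ?_) (by simp)]
          · have hsym' : τ.symm = onSets (kidShift (2 * h)) := by
              apply Equiv.ext; intro T
              rw [Equiv.symm_apply_eq, hτdef]
              simp only [onSets_apply, Finset.map_map]
              ext ⟨i, j⟩
              simp [onChild]
            rcases Nat.mod_two_eq_zero_or_one c.1 with hev | hod
            · have e : onSets (pairSwap (⟨c.1 / 2, hp⟩ : Fin h)) S = τ.symm S := by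
                rw [hsym']
                refine onSets_congr fun c' hc' => ?_
                have : c' = c := by simpa [hc] using hc'
                subst this
                have hce : c' = evenKid (⟨c'.1 / 2, hp⟩ : Fin h) := Fin.ext (by simp [evenKid]; omega)
                generalize (⟨c'.1 / 2, hp⟩ : Fin h) = p at hce ⊢
                subst hce
                rw [kidShift_evenKid, pairSwap, Equiv.swap_apply_left]
              simp only [hD, e]
              nlinarith [sq_nonneg (a S - a (τ S))]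
            · have e : onSets (pairSwap (⟨c.1 / 2, hp⟩ : Fin h)) S = τ S := by
                rw [hτdef]
                refine onSets_congr fun c' hc' => ?_
                have : c' = c := by simpa [hc] using hc'
                subst this
                have hco : c' = oddKid (⟨c'.1 / 2, hp⟩ : Fin h) := Fin.ext (by simp [oddKid]; omega)
                generalize (⟨c'.1 / 2, hp⟩ : Fin h) = p at hco ⊢
                subst hco
                rw [pairSwap, Equiv.swap_apply_right, Equiv.Perm.eq_inv_iff_eq, kidShift_evenKid]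
              simp only [hD, e]
              nlinarith [sq_nonneg (a S - a (τ.symm S))]
          · have hcS : kids S = {c} := hc
            simp only [hD]
            rw [onSets_eq_self (fun c' hc' => ?_), sub_self, zero_pow two_ne_zero]
            have : c' = c := by simpa [hcS] using hc'
            subst this
            refine pairSwap_fix p c' ?_ ?_ <;>
              · intro e
                apply hpne
                apply Fin.ext
                simp [Fin.ext_iff, evenKid, oddKid] at e
                show p.1 = c'.1 / 2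
                omega
      _ = 2 * ∑ S ∈ one, (a S - a (τ S)) ^ 2 := by rw [Finset.sum_add_distrib, hsym]; ring
  have horb := step_le_orbit one τ hτmem a hq
  have hshift : ∑ m ∈ Finset.range q, ∑ S ∈ one, (a S - a ((τ ^ m) S)) ^ 2 ≤
      q * shiftAvg q f := by
    rw [shiftAvg, mul_div_cancel₀ _ (Nat.cast_ne_zero.2 (by omega : q ≠ 0))]
    refine Finset.sum_le_sum fun m _ => ?_
    rw [mean_sq_sub]
    refine (Finset.sum_le_univ_sum_of_nonneg (s := one)
      fun S => sq_nonneg (a S - a ((τ ^ m) S))).trans (le_of_eq ?_)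
    refine Finset.sum_congr rfl fun S _ => ?_
    rw [co_onChild, hτdef, onSets_pow, inv_pow]
  have hone0 : ∑ S ∈ one, a S ^ 2 ≤ vari f := by
    rw [vari_eq]
    refine Finset.sum_le_sum_of_subset_of_nonneg (fun S hS => ?_) fun S _ _ => sq_nonneg _
    simp only [hone, Finset.mem_filter, Finset.mem_univ, true_and] at hS ⊢
    rintro rfl
    simp [occ, kids] at hS
  have hmany' : ∑ S ∈ many, 8 * (((occ S : ℝ) - 1) * a S ^ 2) + 8 * vari f ≤
      8 * ∑ c, kidVar c f := by
    rw [sum_kidVar, vari_eq, hmany, Finset.sum_filter, Finset.sum_filter, Finset.mul_sum,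
      Finset.mul_sum, ← Finset.sum_add_distrib]
    refine Finset.sum_le_sum fun S _ => ?_
    by_cases hS : S = ∅
    · subst hS; simp [occ, kids]
    · have h1 : 1 ≤ occ S := Finset.card_pos.2 ((Finset.nonempty_iff_ne_empty.2 hS).image _)
      by_cases h2 : 2 ≤ occ S
      · simp only [h2, if_true, ne_eq, hS, not_false_eq_true, ← ha]
        ring_nf; exact le_rfl
      · have : occ S = 1 := by omega
        simp [this, hS, ← ha]
  have hq0 : (0 : ℝ) < q := by exact_mod_cast hq
  rw [htop, Finset.sum_congr rfl fun p _ => hsplit p, Finset.sum_add_distrib]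
  have e1 : 6 / (q : ℝ) * ∑ m ∈ Finset.range q, ∑ S ∈ one, (a S - a ((τ ^ m) S)) ^ 2 ≤
      6 * shiftAvg q f := by
    calc _ ≤ 6 / (q : ℝ) * (q * shiftAvg q f) := mul_le_mul_of_nonneg_left hshift (by positivity)
      _ = _ := by field_simp
  have e2 : 12 / (q : ℝ) ^ 2 * ∑ S ∈ one, a S ^ 2 ≤ 12 / (q : ℝ) ^ 2 * vari f :=
    mul_le_mul_of_nonneg_left hone0 (by positivity)
  have e3 : 24 / (q : ℝ) ^ 2 * vari f = 2 * (12 / (q : ℝ) ^ 2 * vari f) := by ring
  linarith

end Vale.Agent.P238
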